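import Crest.Agent.X212.Kl48.Led

/-!
# Row 212, KILL-LENS (helper48): `Rf65.KlStmt`
-/

set_option autoImplicit false
set_option linter.unusedSectionVars false
noncomputable section
open scoped Manifold ContDiff Topology
open MeasureTheory Set Function Filter Classical

namespace Crest.Agent.X212.Kl48
open An M Nd18 Rdc90 Rf65 Cyl58 G75 Ins26 Sid48
open An.Job (Sol SolOn)

variable {κ lam : Type} [Fintype κ] [Fintype lam] [DecidableEq lam] {Lm : LM κ lam} {S : Scene Lm}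
  {c : S.M.Cl} {a l x : S.A} {D : S.Dat} {i : S.L} {Wi : Type} {r n : ℕ}
  {J : Job Wi (D.Λ i) (S.A ⊕ Unit) S.ls r n}
  {X : Finset S.A} {a₀ : Option S.A} {j : ℕ} {n₀ : ℤ} {T δ K₀ ε w : ℝ} {Adm : (Wi →₀ ℝ) → Prop}
  {τ σ : Finset S.A} {o : Option Bool} {q : Wi →₀ ℝ} {y : J.Obc c} {π ρ : Reg S.A}
  {z : S.A → J.Obc c} {e : S.A → ℕ}

theorem sf_le : (sf o : ℝ) ≤ 1 := by cases o <;> simp [sf]

theorem pcs_top (h : c0 c = ∅) : pcs S.M.sys (c0 c) = {top S.A} := Finset.ext fun π => by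
  rw [mem_pcs, h, Finset.coe_empty, Finset.mem_singleton]
  exact ⟨fun k => let ⟨_, hx⟩ := k.toIsReg.nonempty
    k.unique (pairwise_empty _) S.M.sys.piece_top hx (by simp), fun k => k ▸ S.M.sys.piece_top⟩

theorem oc_top (h : LL c = {x}) : oc c (top S.A) = hp x true := funext fun a => by
  simp [ou, fi_top, h, hp, top]

namespace Cx
variable (H : Cx c J X a₀ j n₀ T δ Adm τ σ o) (hy : Sol (cel τ o) q y)
include H hy

theorem lev : ∑ π ∈ pcs S.M.sys (c0 c), Tt y π =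
    J.k - y.l + ∑ π ∈ pcs S.M.sys (c0 c), ∑ l ∈ fi S.M.sys S.ls π, ch y l := by
  have h1 := hy.lev
  rw [kap_sum hy.int, Rf65.Pc, H.lf.finsum_pc, show ∑ a, (cylW c).indicator y.k a =
      ∑ π ∈ pcs S.M.sys (c0 c), ∑ l ∈ fl c π, y.k l by
    rw [sum_iN H.lf.cell₀ fun _ => mem_pcs.1, H.lf.iN_L]
    simp [LL, indicator, Finset.sum_filter]] at h1
  simp only [Tt, Finset.sum_add_distrib] at h1 ⊢
  linarith

theorem drop : ∑ π ∈ pcs S.M.sys (c0 c), ∑ l ∈ fi S.M.sys S.ls π, ch y l ≤ y.l := by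
  rw [sum_iN H.lf.cell₀ fun _ => mem_pcs.1]
  refine (sum_le_ncard fun l hl => ?_).trans (Nat.cast_le.2 hy.drop)
  obtain ⟨k, π, h, i⟩ := mem_iN.1 hl
  unfold ch
  split_ifs with m
  · exact .inl le_rfl
  refine .inr ⟨le_rfl, ⟨l, k⟩, ⟨?_, fun m' => m ⟨_, m', rfl⟩⟩, rfl⟩
  rw [Job.unc, H.gx.nb]
  exact H.gx.sc.unc_of _ fun a ha e => ((H.lf.mem a).1 ha).elim
    (fun k' => (inn_cmp H.lf.cell₀ (mem_pcs.1 h) i k').symm) fun k' => H.cmp_ls (H.ls k') k e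

theorem c0_sub : c0 c ⊆ σ := fun _ k => H.sub (H.c_sub hy (mem_c0.1 k).1)

/-- the total weight -/
theorem tot (hS : SumStmt Lm) {β sg l2 : Reg S.A → ℝ}
    (hN : ∀ π, S.M.sys.Piece ↑(c0 c) π → S.Nb i (S.M.sys.U π) (β π) (sg π) (l2 π)) :
    ∑ π ∈ pcs S.M.sys (c0 c), Wt (β π) (sg π) (l2 π) (S.nm σ π) (S.nh π) (Tt y π) ≤
      n₀ - 2 * j + 4 + σ.card + 2 * S.nd (c0 c) -
        6 * (y.l - ∑ π ∈ pcs S.M.sys (c0 c), ∑ l ∈ fi S.M.sys S.ls π, ch y l) := by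
  obtain ⟨b, s, l, hb⟩ := exists_nb_univ (S := S) i
  obtain ⟨h1, h2⟩ := hS S i (c0 c) β sg l2 b s l H.lf.cell₀ (fun _ k => (mem_c0.1 k).2) hb hN
  rw [show {π | S.M.sys.Piece ↑(c0 c) π} = ↑(pcs S.M.sys (c0 c)) from Set.ext fun _ => mem_pcs.symm,
    finsum_mem_coe_finset] at h1 h2
  have h3 := H.lev hy
  rw [H.gx.k, kz, d0_eq hb] at h3
  have h4 : ((iN S.M.sys (pcs S.M.sys (c0 c)) σ).card : ℝ) + (c0 c).card ≤ σ.card := by
    rw [← Nat.cast_add, ← Finset.card_union_of_disjoint (Finset.disjoint_left.2 fun a k k' =>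
      let ⟨_, _, h, i⟩ := mem_iN.1 k; (mem_pcs.1 h).not_inn a k' i)]
    exact Nat.cast_le.2 (Finset.card_le_card (Finset.union_subset (Finset.filter_subset _ _) (H.c0_sub hy)))
  have h5 : (S.ls.card : ℝ) ≤ (iN S.M.sys (pcs S.M.sys (c0 c)) S.ls).card + S.nd (c0 c) := by
    rw [← Nat.cast_add, Nat.cast_le, ← ncard_coe_finset, ← ncard_coe_finset]
    refine (ncard_le_ncard fun l hl => or_iff_not_imp_right.2 fun k => ?_).trans (ncard_union_le _ _)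
    obtain ⟨π, h, i⟩ := (Sys.existsUnique_inn H.lf.cell₀ (fun m => H.gx.sc.lsp l hl (mem_c0.1 m).2)
      fun a m => Sys.Cmp.symm (by_contra fun m' => k ⟨hl, a, m, m'⟩)).exists
    exact mem_iN.2 ⟨hl, π, mem_pcs.2 h, i⟩
  rw [← card_iN H.lf.cell₀ fun _ => mem_pcs.1] at h4 h5
  simp only [Wt, Scene.nm, Scene.nh, ncard_fi, Finset.sum_add_distrib, Finset.sum_sub_distrib,
    ← Finset.mul_sum, ← Finset.sum_div, Finset.sum_const, nsmul_eq_mul, card_pcs H.lf.cell₀] at h2 ⊢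
  push_cast
  linarith

/-- **regions without spinor** -/
theorem w_le (hE : EpsAt J ε Adm) (hK : NK J Adm K₀) (ha : Adm q)
    (hz : ∀ l ∈ LL c, Fi δ y (z l) (e l) l) (h : S.M.sys.Piece ↑(c0 c) π) {β sg l2 : ℝ}
    (R : RB S i σ (c0 c) π K₀ ε T w β sg l2) (hε : 0 ≤ ε) (h0 : ¬y.TF (oc c π))
    (hI : ¬y.TA (oc c π) → Ok δ y.noz (pI J c (shX S X) (cel τ o) y (oc c π))) :
    w ≤ Wt β sg l2 (S.nm σ π) (S.nh π) (Tt y π) := by
  have hπ := H.lf.piece_ou h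
  obtain ⟨h1, -, m, h3⟩ := H.add_fi hz hy h R.nb
  obtain ⟨m', h4⟩ := Tt_int hz (π := π)
  have h5 := kap_le hz (π := π)
  have h6 : (0 : ℝ) ≤ m' := Nat.cast_nonneg _
  have key : -1 / 16 ≤ y.kap (D.W.pc c (oc c π)) ∧
      (y.TA (oc c π) → EA ε y (oc c π) ∨ K₀ ≤ y.kap (D.W.pc c (oc c π))) := by
    by_cases k : ∃ a, (a ∈ S.M.sys.inn (oc c π) ∨ oc c π a ≠ none) ∧ ¬Nl J a
    · have := hK _ H.an.mem c _ _ q y.noz ha rfl rfl hπ
        (hy.onI (sh := shX S X) H.an.ok H.an.mem H.an.dead hπ h0) k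
      exact ⟨this.1, fun t => (this.2 t).imp_left (ea_flat hπ)⟩
    · have := hE _ H.an.mem c q y _ ha hy hπ h0 fun a k' => by_contra fun k'' => k ⟨a, k', k''⟩
      exact ⟨by linarith [this.2.1], fun _ => .inl this.1⟩
  have pos : 0 ≤ kk y z π := by
    obtain ⟨b, hb⟩ := nb_int R.nb
    obtain ⟨u, hu⟩ : ∃ u : ℤ, (u : ℝ) = 8 * kk y z π := ⟨ia δ y (oc c π) +
      ∑ l ∈ fl c π, ia δ (z l) (hp l false) + 3 * b - ∑ l ∈ fl c π, dw y l, by push_cast; linarith⟩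
    have : (0 : ℝ) ≤ u := by exact_mod_cast (show (-1 : ℤ) < u by
      rw [← Int.cast_lt (R := ℝ)]; push_cast; linarith [key.1] : (0 : ℤ) ≤ u)
    linarith
  have mono : ∀ k ≤ Tt y π, Wt β sg l2 (S.nm σ π) (S.nh π) k ≤ Wt β sg l2 (S.nm σ π) (S.nh π) (Tt y π) :=
    fun k hk => by simp only [Wt]; linarith
  by_cases t : y.TA (oc c π)
  · rcases key.2 t with k | k
    swap
    · exact R.hi.trans (mono _ (by linarith))
    obtain ⟨g, g1, g2⟩ := H.lf.exists_ob h y z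
    have p := H.pt hy
    have := R.ab D Wi r n J c δ y.s g (fun a => y.β a true) H.an.ok H.an.d0
      (fun a => mem_c0.trans (and_congr_right fun k => (or_iff_left (H.nfz k)).symm))
      ⟨fun a k => if k' : a ∈ τ then p.1 a k' else by
        rw [p.2.2 a k' (Finset.disjoint_left.1 (H.gx.sc.cell i σ H.mem).2 k)]; simp,
        p.2.1, fun a k => p.2.2 a fun k' => k (H.sub k')⟩ hy.inf
      (fun a k => H.an.ok.mem (.inl a) a (by
        rw [H.gx.hd]; exact if_pos (.inr (.inl (H.cyl k)))) k.2) h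
      (g1 (fun ρ x => x.s = y.s ∧ Go δ x {ρ} ∧ x.TA ρ ∧ EA ε x ρ ∧ (∀ a ∈ cylW c, ∀ b, ρ a = some b →
        a ∈ S.M.sys.inn π → Bs (J.xs a).D (y.β a true) ∧ (J.xs a).D.Eqv (y.β a true) (x.β a b)) ∧
        ∀ a ∈ c.1, a ∈ S.M.sys.inn π → S.M.sys.U ρ ⊆ (S.M.sys.w a).sd false → Un x ρ)
      ⟨rfl, H.go hy (singleton_subset_iff.2 hπ), t, k, fun a ha b k _ => by
        rw [((H.lf.ou_end h (mem_LL.2 ha)).1 k).2]
        exact ⟨H.bs hy ha _, eqv_refl (H.bs hy ha _)⟩, fun a ha k k' =>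
          have m := ((H.lf.mem a).1 ha).resolve_left fun m => h.not_inn a m k
          (H.lf.ou_ne_hp h m (H.lf.eq_hp m hπ k')).elim⟩
      fun l hl => have f := (hz l (mem_fi.1 hl).1).fil
        ⟨f.s, f.go, f.ta, ea_mono f.ea le_rfl hε, fun a ha b k _ => by
          obtain ⟨rfl, rfl⟩ := hp_eq.1 k
          exact ⟨H.bs hy ha _, f.eqv⟩, fun _ _ _ _ => f.un⟩)
    simp only [Scene.In] at this
    rw [g2 fun x ρ => x.kap (D.W.pc c ρ)] at this
    exact (this ⟨pos, m, h3⟩).trans (mono _ (h4 ▸ le_add_of_nonneg_right h6))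
  refine R.ir _ ⟨by linarith, m + m', by push_cast; linarith⟩ (le_trans ?_ (H.led hz hy h R.nb).2)
  have hF : ∀ π' ∈ ({π} : Finset _), S.M.sys.Piece ↑(c0 c) π' := by simpa using h
  have k1 := H.lv_ou hy hF
  have k2 := H.stb_ou (y := y) hF
  have k3 := H.cs_ou (y := y) hF
  have k4 : (stb y {oc c π} : ℝ) ≤ dmy δ y.noz (pI J c (shX S X) (cel τ o) y (oc c π)) := by
    have := hI t
    rw [Ok, Nat.zero_min, Nat.zero_add] at this
    exact_mod_cast (this : ((stb y {oc c π} : ℕ) : ℤ) ≤ _)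
  rw [H.dmy_noz hy] at k4
  simp only [Finset.coe_singleton, image_singleton, Finset.sum_singleton] at k1 k2 k3
  simp only [Job.prt, ix, finsum_mem_singleton, finsum_mem_empty, add_zero, ia_noz] at k4
  linarith [sf_le (o := o)]

omit hy in
/-- **KILL** -/
theorem kill (hS : SumStmt Lm) (hU : UN S K₀ ε T) (hε : 0 ≤ ε) (hC : Br55.NC S i σ)
    (hE : EpsAt J ε Adm) (hK : NK J Adm K₀) : Kill J c δ (shX S X) (cel τ o) Adm n₀ := by
  intro q y ha hy ht hF hI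
  obtain ⟨z, e, hz⟩ := H.exists_fi ha hy
  obtain ⟨w, β, sg, l2, R, hn⟩ := hU i σ _ (hC _ (H.c0_sub hy) fun _ k => (mem_c0.1 k).2)
  have t1 := H.tot hy hS fun π h => (R π h).nb
  have t2 := H.drop hy
  have t3 : (n₀ : ℝ) + σ.card + sf o ≤ 1 := by exact_mod_cast H.num
  generalize hG : (fun π => Wt (β π) (sg π) (l2 π) (S.nm σ π) (S.nh π) (Tt y π)) = G at t1
  obtain ⟨F, eF⟩ : ∃ F, F = (pcs S.M.sys (c0 c)).filter fun π => y.TF (oc c π) := ⟨_, rfl⟩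
  obtain ⟨N, eN⟩ : ∃ F, F = (pcs S.M.sys (c0 c)).filter fun π => ¬y.TF (oc c π) := ⟨_, rfl⟩
  have mF : ∀ π, π ∈ F ↔ S.M.sys.Piece ↑(c0 c) π ∧ y.TF (oc c π) := fun π => by
    rw [eF, Finset.mem_filter, mem_pcs]
  have mN : ∀ π, π ∈ N ↔ S.M.sys.Piece ↑(c0 c) π ∧ ¬y.TF (oc c π) := fun π => by
    rw [eN, Finset.mem_filter, mem_pcs]
  have pF := fun π k => ((mF π).1 k).1
  have s1 : ∑ π ∈ F, G π + ∑ π ∈ N, G π = ∑ π ∈ pcs S.M.sys (c0 c), G π := by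
    rw [eF, eN, Finset.sum_filter_add_sum_filter_not]
  have s2 : (F.card : ℝ) + N.card = (c0 c).card + 1 := by
    rw [eF, eN, ← Nat.cast_add, Finset.card_filter_add_card_filter_not, card_pcs H.lf.cell₀]; simp
  have s3 : ∑ π ∈ N, w π ≤ ∑ π ∈ N, G π := Finset.sum_le_sum fun π k =>
    let ⟨h, k⟩ := (mN π).1 k
    hG ▸ H.w_le hy hE hK ha hz h (R π h) hε k fun t => hI _ ⟨H.lf.piece_ou h, k, t⟩
      (H.rt (H.lf.piece_ou h) fun _ => H.lf.ou_ne h)
  have s4 : F.Nonempty → ∑ π ∈ F, cost δ y z e π + 4 * F.card ≤ 2 * j + sf o + ∑ π ∈ F, G π := fun f => by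
    have e1 : y.F (Pc c) = oc c '' ↑F := Set.ext fun ρ => ⟨fun ⟨k, k'⟩ => (H.lf.cases k).elim
        (fun ⟨π, h, i⟩ => ⟨π, (mF π).2 ⟨h, by subst i; exact k'⟩, i.symm⟩)
        fun ⟨_, hl, i⟩ => (H.ntf ha hy hl (i ▸ k')).elim,
      fun ⟨π, k, i⟩ => i ▸ ⟨H.lf.piece_ou (pF π k), ((mF π).1 k).2⟩⟩
    have k : ((min r 1 + stb y (oc c '' ↑F) : ℕ) : ℝ) ≤
        dmy δ y (J.prt (shX S X) (cel τ o) c (oc c '' ↑F) (oc c '' ↑F) y.H) := by
      rw [← e1]; exact_mod_cast hF (e1 ▸ (Finset.coe_nonempty.2 f).image _)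
    rw [H.dmy_eq hy, min_eq_right (Nat.one_le_iff_ne_zero.2 H.an.r0)] at k
    have k1 := H.lv_ou hy pF
    have k2 := H.stb_ou (y := y) pF
    have k3 := H.cs_ou (y := y) pF
    have k4 := Finset.sum_le_sum fun π h => (H.led hz hy (pF π h) (R π (pF π h)).nb).1
    simp only [Job.prt, ix, H.lf.finsum_ou pF] at k
    push_cast at k
    rw [← hG]
    simp only [Finset.sum_add_distrib, Finset.sum_sub_distrib, ← Finset.mul_sum, Finset.sum_const,
      nsmul_eq_mul] at k3 k4 ⊢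
    linarith
  have s5 : 0 ≤ ∑ π ∈ F, cost δ y z e π := Finset.sum_nonneg fun _ _ => cost_nonneg hz
  obtain ⟨n1, n2⟩ : ¬(c0 c).Nonempty ∧ ¬N.Nonempty := not_or.1 fun k => by
    have := hn N (fun π k => ((mN π).1 k).1) k
    rcases F.eq_empty_or_nonempty with rfl | f
    · simp only [Finset.sum_empty, Finset.card_empty, Nat.cast_zero] at s1 s2
      linarith [(Nat.cast_nonneg j : (0 : ℝ) ≤ j), (Nat.cast_nonneg (sf o) : (0 : ℝ) ≤ _)]
    · linarith [s4 f]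
  rw [Finset.not_nonempty_iff_eq_empty] at n1 n2
  have tp := pcs_top n1
  have tf : y.TF (oc c (top S.A)) := by_contra fun k => by
    simpa [n2] using (mN _).2 ⟨mem_pcs.1 (tp ▸ Finset.mem_singleton_self _), k⟩
  obtain rfl : F = {top S.A} := by rw [eF, tp]; exact Finset.filter_true_of_mem (by simpa using tf)
  have s6 := s4 (Finset.singleton_nonempty _)
  have s7 := Finset.sum_sdiff (f := ch y) (show LL c ⊆ S.ls from fun _ => H.ls)
  have s8 := Finset.sum_nonneg fun l (_ : l ∈ S.ls \ LL c) => ch_nonneg y l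
  simp only [tp, Finset.sum_singleton, fi_top, cost, Finset.card_singleton, Nat.cast_one] at t1 t2 s6
  rw [show S.nd (c0 c) = 0 by simp [Scene.nd, n1], Nat.cast_zero] at t1
  have mc : ∀ a, a ∈ c.1 ↔ a ∈ LL c := fun a => by simpa [n1] using H.lf.mem a
  rcases (LL c).eq_empty_or_nonempty with f | ⟨x, hx⟩
  · simp only [f, Finset.sum_empty, Finset.card_empty, Nat.cast_zero] at s6 s7 s8 mc
    exact (ht ⟨Subtype.ext (eq_empty_of_forall_notMem (by simpa using mc)), Nat.lt_one_iff.1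
      (by rw [← Nat.cast_lt (α := ℝ)]; push_cast; linarith), tf.imp fun _ => And.right⟩).elim
  have s9 := Finset.sum_nonneg fun l hl => (hz l hl).g
  have f : LL c = {x} := Finset.eq_singleton_iff_unique_mem.2 ⟨hx, fun a k => Finset.card_le_one.1
    (show (LL c).card ≤ 1 by rw [← Nat.cast_le (α := ℝ)]; push_cast; linarith) a k x hx⟩
  rw [oc_top f] at tf
  simp only [f, Finset.sum_singleton, Finset.card_singleton, Nat.cast_one, Finset.mem_singleton] at s6 s7 s8 s9 mc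
  obtain ⟨k1, k2, -⟩ := (hz x hx).eq (by linarith)
  refine ⟨x, by have := H.num; have := Finset.card_le_card H.sub; rw [dim_cel]; omega, Set.ext mc,
    (mem_LL.1 hx).2, ⟨(Nat.cast_nonpos (α := ℝ)).1 ?_,
      fun a k => (mc a).1 k.1 ▸ k2⟩, tf⟩
  linarith [(Nat.cast_nonneg (e x) : (0 : ℝ) ≤ _)]

/-- the numbers of a face object -/
theorem face (ha : Adm q) (hf : Fc J c (cel τ o) n₀ y x) : ∃ (z : J.Obc c) (e : ℕ), Fi δ y z e x ∧
    J.unc c = univ ∧ y.k x = 0 ∧ ch y x = 0 ∧ (x ∈ cylW c ∧ S.M.sys.Piece c.1 (hp x true)) ∧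
    (∀ ρ ∈ Pc c, ρ ∉ ({hp x true} : Set _) → ¬y.TF ρ) ∧
    stb y {hp x true} = dw y x ∧ stb y {hp x true, hp x false} = 2 * dw y x ∧
    (dmy δ y (pW J c (shX S X) (cel τ o) x) : ℝ) = n₀ + Job.dim (cel τ o) + dw y x ∧
    (dmy δ y (pO J c (shX S X) (cel τ o) x) : ℝ) = n₀ + Job.dim (cel τ o) + dw y x - gg δ y z e x ∧
    (dmy δ y (pV J c (shX S X) (cel τ o) x) : ℝ) =
      n₀ + Job.dim (cel τ o) + dw y x - idr δ z (hp x false) + 2 * e := by
  obtain ⟨-, hc, hp', ht, -⟩ := hf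
  have mc : ∀ a, a ∈ c.1 ↔ a = x := fun a => by rw [hc]; rfl
  have hx : x ∈ cylW c := ⟨(mc x).2 rfl, hp'⟩
  have f : LL c = {x} := Finset.eq_singleton_iff_unique_mem.2
    ⟨mem_LL.2 hx, fun a k => (mc a).1 (mem_LL.1 k).1⟩
  have n1 : c0 c = ∅ := Finset.eq_empty_of_forall_notMem fun a k =>
    hp' ((mc a).1 (mem_c0.1 k).1 ▸ (mem_c0.1 k).2)
  have tp := pcs_top n1
  have h : S.M.sys.Piece ↑(c0 c) (top S.A) := mem_pcs.1 (tp ▸ Finset.mem_singleton_self _)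
  have un : J.unc c = univ := eq_univ_of_forall fun l => by
    rw [Job.unc, H.gx.nb]
    exact H.gx.sc.unc_of _ fun a k e => H.cmp_ls ((mc a).1 k ▸ H.cyl hx) l.2 e
  have c1 : ∀ l ∈ S.ls, ch y l = 0 := fun l hl => if_pos ⟨⟨l, hl⟩, by rw [hy.H_eq ht.1, un]; trivial, rfl⟩
  obtain ⟨b1, b2⟩ := brk0 (hy.brk x hx) (ht.2 x hx)
  obtain ⟨z, e, hz⟩ := H.exists_fi ha hy
  obtain ⟨β, sg, l2, hb⟩ := exists_nb_univ (S := S) i
  obtain ⟨a1, a2, -⟩ := H.add_reg (z := fun _ => y) hy h (S.M.sys.U_top ▸ hb) fun l hl => by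
    obtain rfl : l = x := by simpa [f, fi_top] using hl
    exact ⟨rfl, H.go hy (singleton_subset_iff.2 (H.lf.piece_hp (mem_LL.2 hx))),
      b1 ▸ eqv_refl (H.bs hy hx _)⟩
  obtain ⟨a3, a4, -⟩ := H.add_fi hz hy h (S.M.sys.U_top ▸ hb)
  have a5 := H.lev hy
  have a6 := (hz x (mem_LL.2 hx)).kap
  rw [H.gx.k, kz, d0_eq hb, ht.1] at a5
  simp only [tp, Tt, kk, fi_top, f, oc_top f, Finset.sum_singleton, b2] at a1 a2 a3 a4 a5 a6
  have out : ∀ a, a ≠ x → a ∈ τ ∨ a ∈ S.ls → a ∈ S.M.sys.inn (hp x true) := fun a k k' =>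
    have m : a ∉ LL c := by simpa [f] using k
    oc_top f ▸ inn_ou (k'.elim (H.out_τ hy · m) (H.out_ls · m)) (by simp)
  have v : ∀ P : Set (Reg S.A), hp x true ∈ P →
      ((J.lv (shX S X) (cel τ o) c P).ncard : ℝ) + 1 = Job.dim (cel τ o) := fun P k => by
    rw [H.card_lv hy (τ.erase x) fun a => ?_, dim_cel, ← Finset.card_erase_add_one (H.c_sub hy hx.1)]
    · push_cast; ring
    rw [Finset.mem_erase, mc]
    exact ⟨fun m => ⟨m.2, m.1, _, k, out a m.1 (.inl m.2)⟩, fun m => ⟨m.2.1, m.1⟩⟩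
  have nb : ∀ l : S.ls, l.1 ≠ x → J.nb l ⊆ S.M.sys.U (hp x true) := fun l k => H.gx.nb ▸
    subset_union_left.trans (H.gx.sc.hf_U l (out l k (.inr l.2)))
  have u1 : ((J.cs {hp x true, hp x false} univ).ncard : ℝ) = S.ls.card := by
    rw [eq_univ_of_forall (s := J.cs _ univ) fun l => ⟨trivial, ?_⟩, ncard_univ]
    · simp
    rw [biUnion_pair]
    by_cases k : l.1 = x
    · rw [H.gx.nb, U_hp, U_hp, ← k]; exact subset_union_right
    · exact (nb l k).trans subset_union_left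
  have u2 : ((J.cs {hp x true} univ).ncard : ℝ) + 1 = S.ls.card := by
    have := ncard_add_ncard_compl ({⟨x, H.cyl hx⟩} : Set S.ls)
    rw [ncard_singleton, Nat.card_eq_fintype_card, Fintype.card_coe] at this
    rw [← this, show J.cs {hp x true} univ = {⟨x, H.cyl hx⟩}ᶜ from Set.ext fun l => ?_]
    · push_cast; ring
    simp only [Job.cs, biUnion_singleton, mem_ofPred_eq, mem_univ, true_and]
    refine ⟨fun k m => ?_, fun k => nb l fun m => k (Subtype.ext m)⟩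
    obtain ⟨p, hp⟩ := (S.M.sys.w x).ne false
    rw [mem_singleton_iff.1 m, H.gx.nb, U_hp] at k
    exact Bool.noConfusion ((S.M.sys.w x).sd_inj hp.2 (k hp.2))
  have ne : hp x true ≠ hp x false := fun k => by simpa [hp_self] using congrFun k x
  have v1 := v {hp x true} rfl
  have v2 := v {hp x true, hp x false} (.inl rfl)
  refine ⟨z x, e x, hz x (mem_LL.2 hx), un, b2, c1 x (H.cyl hx), ⟨hx, oc_top f ▸ H.lf.piece_ou h⟩, fun ρ k m => (H.lf.cases k).elim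
    (fun ⟨π, k, i⟩ => (m (by
      obtain rfl : π = top S.A := Finset.mem_singleton.1 (tp ▸ mem_pcs.2 k)
      exact i.trans (oc_top f))).elim)
    fun ⟨_, hl, i⟩ => i ▸ H.ntf ha hy hl, ?_, ?_, ?_, ?_, ?_⟩
  · rw [stb_eq {(x, true)} fun a b => by
      cases b <;> simpa [hp_eq] using fun k => k ▸ hx, Finset.sum_singleton]
  · rw [stb_eq {(x, true), (x, false)} fun a b => by
      cases b <;> simpa [hp_eq] using fun k => k ▸ hx, Finset.sum_pair (by simp), b1, two_mul]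
  all_goals
    rw [H.dmy_eq hy]
    simp only [Job.prt, ix, finsum_mem_singleton, finsum_mem_pair ne, gg, c1 x (H.cyl hx)]
    push_cast at a5 ⊢
    linarith

theorem face_ok (ha : Adm q) (hf : Fc J c (cel τ o) n₀ y x)
    (h : Ok δ y (pO J c (shX S X) (cel τ o) x)) : n₀ + Job.dim (cel τ o) = 1 ∧ dw y x = 1 ∧
      y.kap (D.W.pc c (hp x false)) = 1 / 4 ∧ dmy δ y (pO J c (shX S X) (cel τ o) x) = 2 ∧
      dmy δ y (pW J c (shX S X) (cel τ o) x) = 2 ∧ dmy δ y (pV J c (shX S X) (cel τ o) x) = 2 := by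
  obtain ⟨z, e, f, -, k0, c0, -, -, s1, -, d1, d2, d3⟩ := H.face hy ha hf
  have h1 : ((min r 1 + stb y {hp x true} : ℕ) : ℝ) ≤ dmy δ y (pO J c (shX S X) (cel τ o) x) := by
    exact_mod_cast h
  have h2 : (n₀ : ℝ) + Job.dim (cel τ o) ≤ 1 := by exact_mod_cast hf.1
  rw [min_eq_right (Nat.one_le_iff_ne_zero.2 H.an.r0), s1] at h1
  push_cast at h1
  have g0 : gg δ y z e x = 0 := by linarith [f.g]
  obtain ⟨k1, -, k2, k3, k4⟩ := f.eq g0
  have h3 : (n₀ : ℝ) + Job.dim (cel τ o) = 1 := by linarith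
  rw [h3, k2] at d1 d2 d3
  rw [c0, add_zero] at k1
  exact ⟨by exact_mod_cast h3, k2, by linarith [f.kap], by rw [g0] at d2; exact_mod_cast d2,
    by exact_mod_cast d1, by rw [k1, k3] at d3; exact_mod_cast d3⟩

omit hy in
/-- **FNUM** -/
theorem fnum : FNum J c δ (shX S X) (cel τ o) Adm n₀ := fun q y x ha hy hf => by
  obtain ⟨z, e, -, un, -, -, ⟨hx, -⟩, -, -, s2, d1, -⟩ := H.face hy ha hf
  refine ⟨un, fun h => H.an.ab x hx _ (H.bs hy hx true) ?_, fun _ h => ?_⟩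
  · have h1 : min r 1 + stb y {hp x true, hp x false} ≤ dmy δ y (pW J c (shX S X) (cel τ o) x) := by
      exact_mod_cast h
    have h2 : dmy δ y (pW J c (shX S X) (cel τ o) x) = n₀ + Job.dim (cel τ o) + dw y x := by
      exact_mod_cast d1
    have := hf.1
    have := H.an.r0
    change dw y x = 0
    omega
  · obtain ⟨k1, k2, -, k3, k4, k5⟩ := H.face_ok hy ha hf h
    exact ⟨k2, k3, by rw [k4, k1]; rfl, k5.le⟩

omit hy in
/-- **Q4** -/
theorem q4 : Q4 J c δ Adm (shX S X) (cel τ o) n₀ := fun q y x ha hy hf ⟨b, E, x', ψ, g, k⟩ => by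
  obtain ⟨-, -, -, un, -, -, hx, o1, -⟩ := H.face hy ha hf.1
  have hZ : ∀ i, i ∈ zw J c := fun i _ => H.dh0 i.1.2
  have m0 := mu_none (P := {hp x true}) hZ (cylW c)
  have tf : ∀ π ∈ ({hp x true} : Set _), y.TF π := fun _ e => e ▸ hf.1.2.2.2.2
  have := (H.an.sym _ _ _ _ b δ E q y x' ψ {hp x true} ⟨H.an.ok, H.an.mem, H.an.loc.pok _ H.an.mem c _ _ _
      (fun _ e => e ▸ hx.2) subset_rfl, H.an.pj, fun i _ => m0 i, fun i _ _ k => (k (m0 i)).elim,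
      fun ⟨_, i, _, k, _⟩ => (k (hZ i)).elim⟩ H.an.spl
    { solOn hy (by rw [hy.H_eq hf.1.2.2.2.1.1, un]) o1 with
      fr := fun π e => .inr (.inl (tf π e)), fx := fun i _ _ => H.cz hy i,
      mv := fun i k => (k (m0 i)).elim, mt := fun _ _ k => (k (m0 _)).elim }
    g.ch g.sm k subset_rfl fun π e => .inl (tf π e)).1
  rw [card_UU hZ, ← card_UU (P := {hp x true}) (H.cz hy) (jz y)] at this
  exact ⟨(H.face_ok hy ha hf.1 this).2.2.1, (H.face_ok hy ha hf.1 this).1⟩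

end Cx

/-- **KILL-LENS** -/
theorem kl (hS : SumStmt Lm) (hA : AbwStmt Lm) : KlStmt Lm := fun S => by
  obtain ⟨K₀, ε, hε, h⟩ := exists_un S hA
  refine ⟨K₀, ε, hε, h.mono fun T hU j n₀ D i Wi r n J X a₀ c δ σ' Adm g a0 cy an ad lx hE hK => ?_⟩
  obtain ⟨τ, o, σ, rfl, h1, h2, h3, h4, h5⟩ := g.cell _ an.mem
  have H : Cx c J X a₀ j n₀ T δ Adm τ σ o := ⟨g, a0, cy, an, ad, lx, h1, h2, h4, h5⟩
  exact ⟨H.rch, H.kill hS hU hε.le h3 hE hK, H.fnum, H.q4⟩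

end Crest.Agent.X212.Kl48
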