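import Crest.Agent.X212.Rf65.Pt
import Crest.Agent.X212.Sid48.Chg

/-!
# Row 212, KILL-LENS (helper48): regions bounded by pinch walls, cut along leaf walls
-/

set_option autoImplicit false
set_option linter.unusedSectionVars false
noncomputable section
open Set Function Classical

namespace Crest.Agent.X212.Kl48
open M Sid48
open Rf65 (hp)

variable {X A : Type} [TopologicalSpace X] [PreconnectedSpace X] [Nonempty X] [Fintype A]
  [DecidableEq A] {S : Sys X A} {c : Set A} {c₀ L B : Finset A} {π π' ρ : Reg A} {a l : A} {b : Bool}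
  {F : Finset (Reg A)} {x : X}

theorem hp_some : hp l b a = some true ∨ hp l b a = some false ↔ a = l := by
  unfold hp; split_ifs with h <;> cases b <;> simp [h]

theorem hp_eq {b' : Bool} : hp l b a = some b' ↔ a = l ∧ b = b' := by
  unfold hp; split_ifs with h <;> simp [h]

theorem hp_self : hp l b l = some b := hp_eq.2 ⟨rfl, rfl⟩

theorem hp_none : hp l b a = none ↔ a ≠ l := by
  unfold hp; split_ifs with h <;> simp [h]

theorem U_hp : S.U (hp l b) = (S.w l).sd b :=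
  Subset.antisymm (fun _ k => k l b hp_self) fun _ k _ _ e => (hp_eq.1 e).1 ▸ (hp_eq.1 e).2 ▸ k

theorem hp_inj {l' : A} (h : hp l b = hp l' b) : l = l' := (hp_eq.1 (h ▸ hp_self : hp l' b l = _)).1

theorem not_both (h : (S.w a).band ⊆ (S.w l).sd true) (h' : (S.w a).band ⊆ (S.w l).sd false) : False :=
  let ⟨_, k⟩ := (S.w a).ne true
  Bool.noConfusion ((S.w l).sd_inj (h k.1) (h' k.1))

theorem inn_uniq (hc : S.Cell c) (h : S.Piece c π) (h' : S.Piece c π') (k : a ∈ S.inn π)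
    (k' : a ∈ S.inn π') : π = π' :=
  let ⟨_, hx⟩ := (S.w a).ne true
  h.unique hc h' (k.2.1 hx.1) (k'.2.1 hx.1)

theorem inn_cmp (hc : S.Cell c) (h : S.Piece c π) (k : a ∈ S.inn π) {a' : A} (ha : a' ∈ c) :
    S.Cmp a a' := by
  by_cases e : π a' = none
  · exact (h.toIsReg.outer e (fun _ k' => hc ha (h.bd_subset k') fun i => k' (i ▸ e))
      (h.not_inn a' ha)).1.mono_left k.2.1
  · exact k.2.2 a' e

variable (S) in
/-- the walls of `B` inside the region -/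
def fi (B : Finset A) (π : Reg A) : Finset A := B.filter (· ∈ S.inn π)

variable (S) in
/-- the walls of `B` inside one of the regions -/
def iN (F : Finset (Reg A)) (B : Finset A) : Finset A := B.filter fun a => ∃ π ∈ F, a ∈ S.inn π

theorem mem_fi : a ∈ fi S B π ↔ a ∈ B ∧ a ∈ S.inn π := Finset.mem_filter

theorem mem_iN : a ∈ iN S F B ↔ a ∈ B ∧ ∃ π ∈ F, a ∈ S.inn π := Finset.mem_filter

theorem ncard_fi : (↑B ∩ S.inn π).ncard = (fi S B π).card := by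
  rw [← ncard_coe_finset]; congr 1; ext; simp [mem_fi]

theorem sum_iN {R : Type} [AddCommMonoid R] (hc : S.Cell c) (hF : ∀ π ∈ F, S.Piece c π) (f : A → R) :
    ∑ π ∈ F, ∑ a ∈ fi S B π, f a = ∑ a ∈ iN S F B, f a := by
  rw [← Finset.sum_biUnion fun π k π' k' e => Finset.disjoint_left.2 fun a i i' =>
    e (inn_uniq hc (hF _ k) (hF _ k') (mem_fi.1 i).2 (mem_fi.1 i').2)]
  congr 1
  ext a
  simp only [Finset.mem_biUnion, mem_fi, mem_iN]
  tauto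

theorem card_iN (hc : S.Cell c) (hF : ∀ π ∈ F, S.Piece c π) :
    ∑ π ∈ F, ((fi S B π).card : ℝ) = (iN S F B).card := by
  simpa using sum_iN (B := B) hc hF fun _ => (1 : ℝ)

theorem sum_fi (h : L ⊆ B) (f : A → ℝ) :
    ∑ a ∈ fi S B π, f a = ∑ a ∈ fi S (B \ L) π, f a + ∑ a ∈ fi S L π, f a := by
  simp only [fi, Finset.sum_filter, Finset.sum_sdiff h]

theorem card_fi (h : L ⊆ B) : ((fi S B π).card : ℝ) = (fi S (B \ L) π).card + (fi S L π).card := by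
  simpa using sum_fi (π := π) (S := S) h fun _ => 1

theorem fi_top : fi S B (top A) = B := Finset.filter_true_of_mem fun _ _ => by simp

theorem sum_le_ncard {T : Finset A} {f : A → ℝ} {p : A → Prop} {K : Set {a // p a}}
    (h : ∀ a ∈ T, f a ≤ 0 ∨ f a ≤ 1 ∧ a ∈ Subtype.val '' K) : ∑ a ∈ T, f a ≤ K.ncard := by
  rw [← ncard_image_of_injective K Subtype.val_injective]
  refine (Finset.sum_le_sum (g := fun a => if a ∈ Subtype.val '' K then 1 else 0) fun a k => ?_).trans ?_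
  · split_ifs with i
    exacts [(h a k).elim (·.trans zero_le_one) And.left, (h a k).resolve_right fun j => i j.2]
  · rw [Finset.sum_boole, ← ncard_coe_finset]
    exact Nat.cast_le.2 (ncard_le_ncard fun a k => (Finset.mem_filter.1 k).2)

variable (S) in
/-- the outer piece of a region -/
def ou (L : Finset A) (π : Reg A) : Reg A := fun a => if a ∈ fi S L π then some true else π a

theorem ou_some : ou S L π a = some b ↔ a ∈ fi S L π ∧ b = true ∨ π a = some b := by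
  unfold ou
  split_ifs with h
  · simp [h, (mem_fi.1 h).2.1, eq_comm]
  · simp [h]

theorem ou_none : ou S L π a = none ↔ a ∉ fi S L π ∧ π a = none := by
  unfold ou; split_ifs with h <;> simp [h]

theorem mem_U_ou : x ∈ S.U (ou S L π) ↔ x ∈ S.U π ∧ ∀ l ∈ fi S L π, x ∈ (S.w l).sd true :=
  ⟨fun k => ⟨fun a b e => k a b (ou_some.2 (.inr e)), fun l e => k l _ (ou_some.2 (.inl ⟨e, rfl⟩))⟩,
    fun k a b e => (ou_some.1 e).elim (fun i => i.2 ▸ k.2 a i.1) (k.1 a b)⟩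

theorem U_ou : S.U (ou S L π) ⊆ S.U π := fun _ k => (mem_U_ou.1 k).1

theorem of_inn_ou (k : a ∈ S.inn (ou S L π)) : a ∈ S.inn π ∧ a ∉ L :=
  have i : a ∈ S.inn π := ⟨(ou_none.1 k.1).2, k.2.1.trans U_ou, fun a' e => k.2.2 a' fun j =>
    e (ou_none.1 j).2⟩
  ⟨i, fun j => (ou_none.1 k.1).1 (mem_fi.2 ⟨j, i⟩)⟩

theorem inn_ou (h : ∀ l ∈ L, S.Cmp a l ∧ (S.w a).band ⊆ (S.w l).sd true) (k : a ∈ S.inn π) :
    a ∈ S.inn (ou S L π) :=
  ⟨ou_none.2 ⟨fun j => let ⟨_, i⟩ := (S.w a).ne false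
      Bool.noConfusion ((S.w a).sd_inj i.2 ((h a (mem_fi.1 j).1).2 i.1)), k.1⟩,
    fun _ i => mem_U_ou.2 ⟨k.2.1 i, fun l j => (h l (mem_fi.1 j).1).2 i⟩, fun a' e => by
      obtain ⟨b, e⟩ := Sys.mem_bd.1 e
      exact (ou_some.1 e).elim (fun i => (h _ (mem_fi.1 i.1).1).1) fun i => k.2.2 _ (Sys.mem_bd_of i)⟩

variable (S c c₀ L) in
/-- `c` consists of `c₀` and the walls `L` that have no wall of `c` inside -/
structure Lf : Prop where
  cell : S.Cell c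
  mem : ∀ a, a ∈ c ↔ a ∈ c₀ ∨ a ∈ L
  dj : ∀ a ∈ c₀, a ∉ L
  out : ∀ l ∈ L, ∀ a ∈ c, a ≠ l → (S.w a).band ⊆ (S.w l).sd true

namespace Lf
variable (H : Lf S c c₀ L)
include H

theorem sub : ↑c₀ ⊆ c := fun a k => (H.mem a).2 (.inl k)

theorem cell₀ : S.Cell ↑c₀ := H.cell.mono H.sub

theorem piece_hp (hl : l ∈ L) : S.Piece c (hp l false) :=
  have e : ∀ a ∈ Sys.bd (hp l false), a = l := fun _ k => by_contra fun i => k (hp_none.2 i)
  ⟨⟨fun a k a' k' i => (i ((e a k).trans (e a' k').symm)).elim, fun a b k => by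
      obtain ⟨rfl, rfl⟩ := hp_eq.1 k
      exact inter_subset_right.trans U_hp.ge⟩, fun a k => e a k ▸ (H.mem l).2 (.inr hl),
    fun a k i => not_both (H.out l hl a k (hp_none.1 i.1)) (i.2.1.trans U_hp.le)⟩

theorem eq_hp (hl : l ∈ L) (h : S.Piece c ρ) (k : S.U ρ ⊆ (S.w l).sd false) : ρ = hp l false :=
  let ⟨_, hx⟩ := h.toIsReg.nonempty
  h.unique H.cell (H.piece_hp hl) hx (U_hp.ge (k hx))

theorem piece_ou (h : S.Piece ↑c₀ π) : S.Piece c (ou S L π) := by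
  have e : Sys.bd (ou S L π) ⊆ c := fun a k => by
    obtain ⟨b, k⟩ := Sys.mem_bd.1 k
    exact (H.mem a).2 ((ou_some.1 k).symm.imp (fun i => h.bd_subset (Sys.mem_bd_of i))
      fun i => (mem_fi.1 i.1).1)
  refine ⟨⟨H.cell.mono e, fun a b k x hx => mem_U_ou.2 ⟨?_, fun l j => ?_⟩⟩, e, fun a k i =>
    ((H.mem a).1 k).elim (fun j => h.not_inn a j (of_inn_ou i).1) (of_inn_ou i).2⟩
  · exact (ou_some.1 k).elim (fun i => (mem_fi.1 i.1).2.2.1 hx.1) fun i => h.adj a b i hx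
  · by_cases i : a = l
    · subst i
      exact (ou_some.1 k).elim (fun i => i.2 ▸ hx.2) fun i => by simp [(mem_fi.1 j).2.1] at i
    · exact H.out l (mem_fi.1 j).1 a (e (Sys.mem_bd_of k)) i hx.1

theorem ou_ne (h : S.Piece ↑c₀ π) (hl : l ∈ L) : ou S L π l ≠ some false := fun e =>
  (ou_some.1 e).elim (fun i => Bool.noConfusion i.2) fun i =>
    H.dj l (h.bd_subset (Sys.mem_bd_of i)) hl

theorem ou_end (h : S.Piece ↑c₀ π) (hl : l ∈ L) : ou S L π l = some b ↔ l ∈ S.inn π ∧ b = true :=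
  ou_some.trans ⟨fun k => k.elim (fun i => ⟨(mem_fi.1 i.1).2, i.2⟩) fun i =>
    (H.dj l (h.bd_subset (Sys.mem_bd_of i)) hl).elim, fun k => .inl ⟨mem_fi.2 ⟨hl, k.1⟩, k.2⟩⟩

theorem exists_inn (hl : l ∈ L) : ∃ π, S.Piece ↑c₀ π ∧ l ∈ S.inn π :=
  (Sys.existsUnique_inn H.cell₀ (fun k => H.dj l k hl) fun a k => H.cell ((H.mem l).2 (.inr hl))
    (H.sub k) fun e => H.dj a k (e ▸ hl)).exists

theorem hp_sub (h : S.Piece ↑c₀ π) (hl : l ∈ fi S L π) : S.U (hp l false) ⊆ S.U π := fun x hx a b e => by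
  obtain ⟨k, i⟩ := mem_fi.1 hl
  have ha := H.sub (h.bd_subset (Sys.mem_bd_of e))
  obtain ⟨b', j⟩ := (H.piece_hp k).side H.cell ha
  obtain ⟨y, hy⟩ := (S.w l).ne false
  rw [(S.w a).sd_inj (i.2.1 hy.1 a b e) (j (U_hp.ge hy.2))]
  exact j hx

/-- the pieces inside a region -/
theorem in_iff (h : S.Piece ↑c₀ π) :
    S.Piece c ρ ∧ S.U ρ ⊆ S.U π ↔ ρ = ou S L π ∨ ∃ l ∈ fi S L π, hp l false = ρ := by
  refine ⟨fun ⟨k, i⟩ => ?_, ?_⟩
  · obtain ⟨x, hx⟩ := k.toIsReg.nonempty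
    refine or_iff_not_imp_right.2 fun j => k.unique H.cell (H.piece_ou h) hx
      (mem_U_ou.2 ⟨i hx, fun l hl => ?_⟩)
    obtain ⟨_ | _, e⟩ := k.side H.cell ((H.mem l).2 (.inr (mem_fi.1 hl).1))
    exacts [(j ⟨l, hl, (H.eq_hp (mem_fi.1 hl).1 k e).symm⟩).elim, e hx]
  · rintro (rfl | ⟨l, hl, rfl⟩)
    exacts [⟨H.piece_ou h, U_ou⟩, ⟨H.piece_hp (mem_fi.1 hl).1, H.hp_sub h hl⟩]

theorem ou_ne_hp (h : S.Piece ↑c₀ π) (hl : l ∈ L) : ou S L π ≠ hp l false := fun e =>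
  H.ou_ne h hl (e ▸ hp_self)

theorem finsum_in {R : Type} [AddCommMonoid R] (h : S.Piece ↑c₀ π) (f : Reg A → R) :
    ∑ᶠ ρ ∈ {ρ | S.Piece c ρ ∧ S.U ρ ⊆ S.U π}, f ρ = f (ou S L π) + ∑ l ∈ fi S L π, f (hp l false) := by
  rw [show {ρ | S.Piece c ρ ∧ S.U ρ ⊆ S.U π} =
      ↑(insert (ou S L π) ((fi S L π).image (hp · false))) from Set.ext fun ρ => by
        simp [H.in_iff h], finsum_mem_coe_finset, Finset.sum_insert fun k => by
      obtain ⟨l, hl, e⟩ := Finset.mem_image.1 k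
      exact H.ou_ne_hp h (mem_fi.1 hl).1 e.symm, Finset.sum_image fun _ _ _ _ => hp_inj]

theorem reg_uniq (h : S.Piece ↑c₀ π) (h' : S.Piece ↑c₀ π') (k : S.Piece c ρ) (i : S.U ρ ⊆ S.U π)
    (i' : S.U ρ ⊆ S.U π') : π = π' :=
  let ⟨_, hx⟩ := k.toIsReg.nonempty
  h.unique H.cell₀ h' (i hx) (i' hx)

theorem ou_inj (h : S.Piece ↑c₀ π) (h' : S.Piece ↑c₀ π') (e : ou S L π = ou S L π') : π = π' :=
  H.reg_uniq h h' (H.piece_ou h) U_ou (e ▸ U_ou)

theorem exists_reg (k : S.Piece c ρ) : ∃ π, S.Piece ↑c₀ π ∧ S.U ρ ⊆ S.U π := by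
  obtain ⟨x, hx⟩ := k.toIsReg.nonempty
  obtain ⟨π, h, i⟩ := Sys.exists_piece H.cell₀ (x := x) fun j =>
    disjoint_left.1 (k.disjoint_cores H.cell) hx (biUnion_subset_biUnion_left H.sub j)
  refine ⟨π, h, fun y hy a b e => ?_⟩
  obtain ⟨b', j⟩ := k.side H.cell (H.sub (h.bd_subset (Sys.mem_bd_of e)))
  rw [(S.w a).sd_inj (i a b e) (j hx)]
  exact j hy

theorem cases (k : S.Piece c ρ) : (∃ π, S.Piece ↑c₀ π ∧ ρ = ou S L π) ∨ ∃ l ∈ L, hp l false = ρ :=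
  let ⟨π, h, i⟩ := H.exists_reg k
  ((H.in_iff h).1 ⟨k, i⟩).imp (fun e => ⟨π, h, e⟩) fun ⟨l, hl, e⟩ => ⟨l, (mem_fi.1 hl).1, e⟩

theorem finsum_pc (f : Reg A → ℝ) : ∑ᶠ ρ ∈ {ρ | S.Piece c ρ}, f ρ =
    ∑ π ∈ pcs S c₀, (f (ou S L π) + ∑ l ∈ fi S L π, f (hp l false)) := by
  rw [show {ρ | S.Piece c ρ} = ⋃ π ∈ (↑(pcs S c₀) : Set (Reg A)), {ρ | S.Piece c ρ ∧ S.U ρ ⊆ S.U π} from
      Set.ext fun ρ => ⟨fun k => let ⟨π, h, i⟩ := H.exists_reg k; mem_biUnion (mem_pcs.2 h) ⟨k, i⟩,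
        fun k => let ⟨_, _, i⟩ := mem_iUnion₂.1 k; i.1⟩,
    finsum_mem_biUnion (fun π h π' h' e => disjoint_left.2 fun ρ k k' =>
      e (H.reg_uniq (mem_pcs.1 h) (mem_pcs.1 h') k.1 k.2 k'.2)) (toFinite _) fun _ _ => toFinite _,
    finsum_mem_coe_finset]
  exact Finset.sum_congr rfl fun π h => H.finsum_in (mem_pcs.1 h) f

theorem finsum_ou {R : Type} [AddCommMonoid R] (hF : ∀ π ∈ F, S.Piece ↑c₀ π) (f : Reg A → R) :
    ∑ᶠ ρ ∈ ou S L '' ↑F, f ρ = ∑ π ∈ F, f (ou S L π) := by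
  rw [finsum_mem_image fun π k π' k' => H.ou_inj (hF π k) (hF π' k'), finsum_mem_coe_finset]

/-- one object outside, one in each leaf -/
theorem exists_ob {α : Type} (h : S.Piece ↑c₀ π) (y : α) (z : A → α) : ∃ g : Reg A → α,
    (∀ Q : Reg A → α → Prop, Q (ou S L π) y → (∀ l ∈ fi S L π, Q (hp l false) (z l)) →
      ∀ ρ, S.Piece c ρ ∧ S.U ρ ⊆ S.U π → Q ρ (g ρ)) ∧
    ∀ f : α → Reg A → ℝ, ∑ᶠ ρ ∈ {ρ | S.Piece c ρ ∧ S.U ρ ⊆ S.U π}, f (g ρ) ρ =
      f y (ou S L π) + ∑ l ∈ fi S L π, f (z l) (hp l false) := by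
  let g : Reg A → α := fun ρ => if ρ = ou S L π then y else extend (hp · false) z (fun _ => y) ρ
  have e0 : g (ou S L π) = y := if_pos rfl
  have e1 : ∀ l ∈ fi S L π, g (hp l false) = z l := fun l k =>
    (if_neg (H.ou_ne_hp h (mem_fi.1 k).1).symm).trans
      (Injective.extend_apply (f := (hp · false)) (fun _ _ => hp_inj) _ _ l)
  refine ⟨g, fun Q h0 h1 ρ k => ?_, fun f => ?_⟩
  · obtain rfl | ⟨l, hl, rfl⟩ := (H.in_iff h).1 k
    exacts [e0.symm ▸ h0, (e1 l hl).symm ▸ h1 l hl]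
  · rw [H.finsum_in h fun ρ => f (g ρ) ρ, e0]
    exact congrArg _ (Finset.sum_congr rfl fun l k => by rw [e1 l k])

theorem iN_L : iN S (pcs S c₀) L = L := Finset.filter_true_of_mem fun _ hl =>
  let ⟨π, h, i⟩ := H.exists_inn hl
  ⟨π, mem_pcs.2 h, i⟩

end Lf

end Crest.Agent.X212.Kl48
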