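import Crest.Agent.X212.Kl48.Rg2
import Crest.Agent.X212.Kl48.Led
import Crest.Agent.X212.Rf65.Pr

/-!
# Row 212, KC (helper48): the numerical core `Rf65.KcAt`
-/

set_option autoImplicit false
set_option linter.unusedSectionVars false
noncomputable section
open scoped Manifold ContDiff Topology
open MeasureTheory Set Function Filter Classical

namespace Crest.Agent.X212.Kl48
open An M Nd18 Rdc90 Rf65 Cyl58 G75 Ins26 Sid48
open An.Job (Sol SolOn)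

section job
variable {Wi : Type} {X : Mf 4} {A κ lam : Type} [Fintype A] [Fintype κ] [Fintype lam]
  [DecidableEq lam] {M : Mark X A κ} {W : World M} {N : ML M lam} {Λ : Lns W N}
  {A' h : Type} [Fintype A'] [DecidableEq A'] [Fintype h] {r n : ℕ}
  {J : Job Wi Λ A' h r n} {c : M.Cl} {δ : ℝ} {y : J.Obc c} {P : Set (Reg A)}
  {σ : Cel A'} {q : Wi →₀ ℝ} {sh : Set A'}

theorem ky_fst (j0 : Set A) (i : Ed c) : (ky j0 i).1 = i.1 := by
  unfold ky; split_ifs <;> rfl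

theorem card_UU_eq {Z : Set (Ed c)} {j0 : Set A} (T : Finset A)
    (hT : ∀ a, a ∈ T ↔ ∃ i ∈ EdP c P, i ∉ Z ∧ i.1.1 = a)
    (hk : ∀ i ∈ EdP c P, ∀ i' ∈ EdP c P, i.1 = i'.1 → ky j0 i = ky j0 i') :
    Fintype.card (UU P Z j0) = T.card := by
  rw [← Fintype.card_coe]
  refine Fintype.card_of_bijective (f := fun u => ⟨u.1.1.1, let ⟨i, k, m, e⟩ := u.2
    (hT _).2 ⟨i, k, m, by rw [← e, ky_fst]⟩⟩) ⟨?_, fun a => ?_⟩
  · rintro ⟨_, i, k, m, rfl⟩ ⟨_, i', k', m', rfl⟩ e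
    simp only [ky_fst, Subtype.mk.injEq] at e
    exact Subtype.ext (hk i k i' k' (Subtype.ext e))
  · obtain ⟨i, k, m, e⟩ := (hT _).1 a.2
    exact ⟨⟨_, i, k, m, rfl⟩, Subtype.ext (by simp only [ky_fst, e])⟩

theorem go_an (an : AnH J c δ sh σ) (hy : Sol σ q y) (hP : P ⊆ Pc c) : Go δ y P :=
  go_mono (an.dec _ _ q y an.mem (an.loc.pok _ an.mem c _ _ y.H (fun _ => id) subset_rfl)
    (solOn hy subset_rfl fun _ k i => (i k).elim)).1 hP

end job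

variable {κ lam : Type} [Fintype κ] [Fintype lam] [DecidableEq lam] {Lm : LM κ lam} {S : Scene Lm}
  {c : S.M.Cl} {a l x : S.A} {D : S.Dat} {i : S.L} {Wi : Type} {r n : ℕ}
  {J : Job Wi (D.Λ i) (S.A ⊕ Unit) S.ls r n}
  {X : Finset S.A} {a₀ : Option S.A} {j : ℕ} {n₀ : ℤ} {T δ K₀ ε w k₁ g β sg l2 : ℝ}
  {τ σ : Finset S.A} {o : Option Bool} {y : J.Obc c} {π ρ : Reg S.A} {f : Fls J c} {lo : ℕ}
  {F P P' : Set (Reg S.A)} {G : Finset (Reg S.A)} {s : S.A ⊕ Unit → ℝ}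

theorem sum_ls (L : Finset S.A) (φ : S.A → ℝ) (h : ∀ a ∉ S.ls, φ a = 0) :
    ∑ a ∈ fi S.M.sys S.ls π, φ a = ∑ a ∈ fi S.M.sys (S.ls \ L) π, φ a + ∑ a ∈ fi S.M.sys L π, φ a := by
  simp only [fi, Finset.sum_filter]
  rw [← Finset.sum_inter_add_sum_sdiff S.ls L, add_comm, Finset.sum_subset Finset.inter_subset_right
    fun a k m => by rw [h a fun e => m (Finset.mem_inter.2 ⟨e, k⟩), ite_self]]

theorem cmp_ls (h : S.OK) (ha : a ∈ S.ls) (hl : l ∈ S.ls) (e : a ≠ l) : S.M.sys.Cmp a l :=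
  (h.lsd a ha l hl e).mono subset_union_right subset_union_right

/-- the real piece -/
abbrev rc (c : S.M.Cl) (π : Reg S.A) : Reg S.A := rp S.M.sys c.1 (LL c) π

/-- `1` if the outer limit moves -/
def uu (y : J.Obc c) (a : S.A) : ℝ := if Rf65.Cn (J.xs a).D (y.β a true) then 0 else 1

/-- the level of the region with the fillers -/
def kf (y : J.Obc c) (f : Fls J c) (π : Reg S.A) : ℝ :=
  y.kap (D.W.pc c (rc c π)) + ∑ a ∈ fl c π, (f.z a).kap (D.W.pc c (f.ι a))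

/-- the level of the region with the losses -/
def Tf (y : J.Obc c) (f : Fls J c) (π : Reg S.A) : ℝ :=
  kf y f π + ∑ a ∈ fl c π, (f.e a : ℝ) + ∑ l ∈ fi S.M.sys S.ls π, (drp y l : ℝ)

/-- parameters, ends and cuts of the real piece -/
def rr (σ : Finset S.A) (y : J.Obc c) (π : Reg S.A) : ℝ := (fi S.M.sys (σ \ LL c) π).card +
  ∑ a ∈ fl c π, (uu y a - dw y a) - 2 * ∑ l ∈ fi S.M.sys (S.ls \ LL c) π, (1 - drp y l : ℝ)

variable (J X a₀ j n₀ T c δ τ σ o) in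
/-- the standing hypotheses -/
structure Ck : Prop where
  gx : GX J X a₀ j n₀ T
  a0 : ∀ a ∈ a₀, a ∉ c.1
  cm : cel τ o ∈ J.𝒦
  add : AddAt J c δ
  sub : τ ⊆ σ
  mem : σ ∈ S.K i
  hd : ↑τ ⊆ hard S X

namespace Ck
variable (H : Ck c J X a₀ j n₀ T δ τ σ o)
include H

theorem c_sub (hs : s ∈ Job.cl (cel τ o)) (hi : Sys.inf (J.Θ s).2 = c.1) (ha : a ∈ c.1) : a ∈ τ := by
  obtain ⟨a' | u, k, e⟩ := H.gx.ok.inf _ H.cm s ⟨hs.1, fun a _ => (hs.2 a).2⟩ a (hi.ge ha)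
  · rw [H.gx.hd, Sum.elim_inl] at k
    split_ifs at k
    obtain rfl := Option.some.inj k
    by_contra m
    simpa [e, b01] using hs.1 (.inl a') false (by simp [cel, m])
  · exact (H.a0 a (by rwa [H.gx.hd] at k) ha).elim

theorem card_lv (B : Finset S.A) (hB : ∀ a, a ∈ B ↔ a ∈ τ ∧ a ∉ c.1 ∧ ∃ ρ ∈ P, a ∈ S.M.sys.inn ρ) :
    (J.lv (shX S X) (cel τ o) c P).ncard = B.card + sf o := by
  rw [show J.lv (shX S X) (cel τ o) c P = ↑(B.disjSum (if o = none then {()} else ∅)) from ?_,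
    ncard_coe_finset, Finset.card_disjSum]
  · cases o <;> rfl
  ext (a | u)
  · simp only [Job.lv, H.gx.hd, mem_ofPred_eq, cel_inl, Sum.elim_inl, Finset.mem_coe,
      Finset.inl_mem_disjSum, hB, shX]
    by_cases k : a ∈ τ
    · have k' : a ∈ hard S X := H.hd k
      simp [k, k']
    · simp [k]
  · simp only [Job.lv, H.gx.hd, mem_ofPred_eq, cel_inr, Sum.elim_inr, Finset.mem_coe,
      Finset.inr_mem_disjSum, shX]
    cases o
    exacts [by simpa using H.a0, by simp]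

variable (p : Pre δ ε K₀ (shX S X) (cel τ o) none k₁ y F f lo g)
include p

omit H in
theorem lg : Lg S.M.sys c.1 (c0 c) (LL c) :=
  ⟨c.2, fun a => by rw [mem_c0, mem_LL]; exact ⟨fun k => (Classical.em _).imp (⟨k, ·⟩) (⟨k, ·⟩),
      fun k => k.elim And.left And.left⟩, fun _ h k => (mem_LL.1 k).2 (mem_c0.1 h).2,
    fun l hl a ha e => p.nn l (mem_LL.1 hl) a (mem_LL.1 ha) e.symm⟩

omit H in
theorem io (l : S.A) (hl : l ∈ LL c) : S.M.sys.Piece c.1 (f.ι l) ∧ f.ι l l = some false :=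
  let k := p.fil l (mem_LL.1 hl) (by simp)
  ⟨k.1, k.2.1⟩

omit H p in
theorem mem_Rl : ρ ∈ Rl none c ↔ Re S.M.sys c.1 (LL c) ρ := by
  simp [Rl, Re, Ou, Rf65.Pc, mem_LL]

omit H in
theorem fil (hl : l ∈ fl c π) : Fil δ ε y (f.z l) l (f.ι l) :=
  (p.fil l (mem_LL.1 (mem_fi.1 hl).1) (by simp)).2.2.2.1

omit H in
theorem bs (hl : l ∈ cylW c) : Bs (J.xs l).D (y.β l true) :=
  let ⟨ρ, k, e⟩ := (lg p).exists_adj (mem_LL.2 hl)
  (p.go ρ (mem_Rl.2 k)).bs (⟨l, hl⟩, true) ⟨ρ, rfl, e⟩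

omit H in
theorem exists_fam (h : S.M.sys.Piece ↑(c0 c) π) : ∃ z : Reg S.A → J.Obc c,
    (∀ Q : Reg S.A → J.Obc c → Prop, Q (rc c π) y → (∀ l ∈ fl c π, Q (f.ι l) (f.z l)) →
      ∀ ρ, S.In c π ρ → ((z ρ).s = y.s ∧ Go δ (z ρ) {ρ} ∧ ∀ a ∈ cylW c, ∀ b, ρ a = some b →
        Bs (J.xs a).D (y.β a true) ∧ (J.xs a).D.Eqv (y.β a true) ((z ρ).β a b)) ∧ Q ρ (z ρ)) ∧
    ∀ φ : J.Obc c → Reg S.A → ℝ, ∑ᶠ ρ ∈ {ρ | S.In c π ρ}, φ (z ρ) ρ =
      φ y (rc c π) + ∑ l ∈ fl c π, φ (f.z l) (f.ι l) := by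
  obtain ⟨z, g1, g2⟩ := (lg p).exists_ob (io p) h y f.z
  refine ⟨z, fun Q h0 h1 ρ k => ⟨g1 (fun ρ x => x.s = y.s ∧ Go δ x {ρ} ∧ ∀ a ∈ cylW c, ∀ b,
    ρ a = some b → Bs (J.xs a).D (y.β a true) ∧ (J.xs a).D.Eqv (y.β a true) (x.β a b))
    ⟨rfl, p.go _ (mem_Rl.2 ((lg p).rp_spec h).1), fun a ha b k => ?_⟩
    (fun l hl => ⟨(fil p hl).s, (fil p hl).go, fun a ha b k => ?_⟩) ρ k, g1 Q h0 h1 ρ k⟩, g2⟩
  · rw [(((lg p).rp_end h (mem_LL.2 ha)).1 k).2]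
    exact ⟨bs p ha, eqv_refl (bs p ha)⟩
  · obtain ⟨rfl, rfl⟩ := (lg p).io_end (io p) (mem_fi.1 hl).1 (mem_LL.2 ha) k
    exact ⟨bs p ha, (fil p hl).eqv⟩

theorem L_sub : LL c ⊆ σ := fun _ k => H.sub (H.c_sub p.cell p.inf (mem_LL.1 k).1)

/-- **additivity over a region** -/
theorem add_reg (h : S.M.sys.Piece ↑(c0 c) π) (hN : S.Nb i (S.M.sys.U π) β sg l2) :
    (ia δ y (rc c π) + ∑ l ∈ fl c π, (ia δ (f.z l) (f.ι l) : ℝ) = 8 * kf y f π - 3 * β +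
      ∑ l ∈ fl c π, ((dw y l : ℝ) - dh (J.xs l).D (y.β l true))) ∧
    (idr δ y (rc c π) + ∑ l ∈ fl c π, (idr δ (f.z l) (f.ι l) : ℝ) = -2 * kf y f π + (l2 - sg) / 2) ∧
    ∃ m : ℤ, kf y f π = (l2 - sg) / 4 + m := by
  obtain ⟨z, g1, g2⟩ := exists_fam p h
  have k := H.add _ H.cm y.s ⟨⟨p.cell.1, fun a _ => (p.cell.2 a).2⟩, p.inf⟩ ⟨_, (lg p).cell₀⟩ π
    (Set.ext fun _ => mem_c0) h β sg l2 hN z (fun a => y.β a true)
    fun ρ k => (g1 (fun _ _ => True) trivial (fun _ _ => trivial) ρ k).1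
  dsimp only at k
  rwa [g2 fun x ρ => x.kap (D.W.pc c ρ), g2 fun x ρ => ia δ x ρ, g2 fun x ρ => idr δ x ρ,
    show cylW c ∩ S.M.sys.inn π = ↑(fl c π) from Set.ext fun _ => by simp [mem_fi, mem_LL],
    finsum_mem_coe_finset] at k

variable (hc : ∀ a ∈ X, ∀ l ∈ S.ls, S.M.sys.Cmp a l)
include hc

theorem cmp (hl : l ∈ S.ls) (h : S.M.sys.Piece ↑(c0 c) π) (k : l ∈ S.M.sys.inn π) (ha : a ∈ c.1)
    (e : a ≠ l) : S.M.sys.Cmp a l := by
  by_cases m : S.M.pin a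
  · exact (inn_cmp (lg p).cell₀ h k (mem_c0.2 ⟨ha, m⟩)).symm
  exact ((H.hd (H.c_sub p.cell p.inf ha)).resolve_left m).elim (cmp_ls H.gx.sc · hl e) (hc a · l hl)

/-- the excess of the real pieces of the regions `G` -/
theorem xs_le (hG : ∀ π ∈ G, S.M.sys.Piece ↑(c0 c) π) :
    (xs δ y (J.prt (shX S X) (cel τ o) c (rc c '' ↑G) P' y.H) : ℝ) ≤
      ix δ y (rc c '' ↑G) P' + sf o + ∑ π ∈ G, rr σ y π := by
  have en : ∀ a ∈ cylW c, ∀ b, (∃ ρ ∈ rc c '' ↑G, ρ a = some b) ↔ (∃ π ∈ G, a ∈ S.M.sys.inn π) ∧ b = true :=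
    fun a ha b => by
      simp only [exists_mem_image, Finset.mem_coe, ← exists_and_right, and_assoc]
      exact exists_congr fun π => and_congr_right fun k => (lg p).rp_end (hG π k) (mem_LL.2 ha)
  have h1 : ((J.lv (shX S X) (cel τ o) c (rc c '' ↑G)).ncard : ℝ) ≤
      (iN S.M.sys G (σ \ LL c)).card + sf o := by
    rw [H.card_lv (τ.filter fun a => a ∉ c.1 ∧ ∃ ρ ∈ rc c '' ↑G, a ∈ S.M.sys.inn ρ)
      fun _ => Finset.mem_filter, ← Nat.cast_add, Nat.cast_le, add_le_add_iff_right]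
    refine Finset.card_le_card fun a k => ?_
    obtain ⟨k, m, _, ⟨π, h, rfl⟩, e⟩ := Finset.mem_filter.1 k
    exact mem_iN.2 ⟨Finset.mem_sdiff.2 ⟨H.sub k, fun e => m (mem_LL.1 e).1⟩, π, h,
      (lg p).inn_sub (hG π h) ((lg p).piece_rp (hG π h)) ((lg p).rp_spec (hG π h)).2 e⟩
  have h2 : (Fintype.card (UU (rc c '' ↑G) (cz y) (jz y)) : ℝ) = ∑ a ∈ iN S.M.sys G (LL c), uu y a := by
    rw [card_UU_eq ((iN S.M.sys G (LL c)).filter fun a => ¬Rf65.Cn (J.xs a).D (y.β a true))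
      (fun a => ?_) fun i k i' k' e => congrArg _ (Prod.ext e
        (((en _ i.1.2 _).1 k).2.trans ((en _ i'.1.2 _).1 k').2.symm))]
    · simp only [uu, ← ite_not (Rf65.Cn _ _)]
      exact (Finset.sum_boole _ _).symm
    rw [Finset.mem_filter, mem_iN, mem_LL]
    refine ⟨fun ⟨⟨k, m⟩, e⟩ => ⟨(⟨a, k⟩, true), (en a k _).2 ⟨m, rfl⟩, e, rfl⟩, ?_⟩
    rintro ⟨⟨⟨a, k⟩, b⟩, m, e, rfl⟩
    obtain ⟨m', rfl⟩ := (en a k b).1 m
    exact ⟨⟨k, m'⟩, e⟩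
  have h3 : (stb y (rc c '' ↑G) : ℝ) = ∑ a ∈ iN S.M.sys G (LL c), (dw y a : ℝ) := by
    rw [stb_eq (iN S.M.sys G (LL c) ×ˢ {true}) fun a b => ?_]
    · simp
    rw [Finset.mem_product, mem_iN, mem_LL, Finset.mem_singleton, and_assoc]
    exact and_congr_right fun ha => (en a ha b).symm
  have h4 : ∑ l ∈ iN S.M.sys G (S.ls \ LL c), (1 - drp y l : ℝ) ≤ (J.cs (rc c '' ↑G) y.H).ncard := by
    refine sum_le_ncard fun l hl => ?_
    obtain ⟨k, π, h, e⟩ := mem_iN.1 hl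
    rw [Finset.mem_sdiff] at k
    have m : l ∉ c.1 := fun m => k.2 (mem_LL.2 ⟨m, H.gx.sc.lsp l k.1⟩)
    unfold drp
    split_ifs with v
    · exact .inl (by simp)
    refine .inr ⟨by simp, ⟨l, k.1⟩, ⟨by_contra fun u => v ⟨k.1, u⟩, ?_⟩, rfl⟩
    rw [H.gx.nb]
    exact (subset_union_left.trans (H.gx.sc.hf_U ⟨l, k.1⟩ ((lg p).inn_rp (io p) (hG π h) m
      (fun a ha => (H.cmp p hc k.1 (hG π h) e ha fun u => m (u ▸ ha)).symm) e
      fun a ha => (p.fil a (mem_LL.1 ha) (by simp)).2.2.1 l k.1))).trans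
      (subset_biUnion_of_mem (u := S.M.sys.U) ⟨π, h, rfl⟩)
  rw [← card_iN (lg p).cell₀ hG] at h1
  rw [← sum_iN (lg p).cell₀ hG] at h2 h3 h4
  rw [show xs δ y (J.prt (shX S X) (cel τ o) c (rc c '' ↑G) P' y.H) = ix δ y (rc c '' ↑G) P' +
    (J.lv (shX S X) (cel τ o) c (rc c '' ↑G)).ncard + Fintype.card (UU (rc c '' ↑G) (cz y) (jz y)) -
    2 * (J.cs (rc c '' ↑G) y.H).ncard - stb y (rc c '' ↑G) from rfl]
  simp only [rr, fl, Finset.sum_add_distrib, Finset.sum_sub_distrib, ← Finset.mul_sum] at h4 ⊢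
  push_cast
  linarith

omit hc in
/-- the ledger of a region -/
theorem led (h : S.M.sys.Piece ↑(c0 c) π) (hN : S.Nb i (S.M.sys.U π) β sg l2) :
    (ia δ y (rc c π) + idr δ y (rc c π) + rr σ y π + ∑ a ∈ fl c π, (Rf65.cost δ none y f a : ℝ) =
      Wt β sg l2 (S.nm σ π) (S.nh π) (Tf y f π) - 4 -
        4 * ∑ l ∈ fi S.M.sys (S.ls \ LL c) π, (drp y l : ℝ)) ∧
    ia δ y (rc c π) + rr σ y π ≤ Dl β (S.nm σ π) (S.nh π) (Tf y f π) := by
  obtain ⟨h1, h2, -⟩ := H.add_reg p h hN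
  have h3 := card_fi (S := S.M.sys) (π := π) (H.L_sub p)
  have h4 := sum_ls (π := π) (LL c) (fun a => drp y a) fun a k => by simp [drp, k]
  have h5 := sum_ls (π := π) (LL c) (fun a => if a ∈ S.ls then 1 else 0) fun a k => if_neg k
  rw [Finset.sum_congr rfl fun a k => if_pos (mem_fi.1 k).1,
    Finset.sum_congr rfl fun a k => if_pos (Finset.mem_sdiff.1 (mem_fi.1 k).1).1] at h5
  have h6 : ∀ a, (du y a : ℝ) = dh (J.xs a).D (y.β a true) - uu y a := fun a => by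
    unfold du uu
    split_ifs <;> simp
  have h7 := Finset.sum_le_sum fun a (k : a ∈ fl c π) => show 2 * (if a ∈ S.ls then 1 else 0 : ℝ) - 1 ≤
      ia δ (f.z a) (f.ι a) + du y a + 8 * (f.e a + drp y a) by
    have := (p.fil a (mem_LL.1 (mem_fi.1 k).1) (by simp)).2.2.2.2
    split_ifs at this ⊢ <;> rw [← Int.cast_le (R := ℝ)] at this <;> push_cast at this <;> linarith
  have h8 : ∀ a, (Rf65.cost δ none y f a : ℝ) = ia δ (f.z a) (f.ι a) + idr δ (f.z a) (f.ι a) +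
      6 * (f.e a + drp y a) - 2 * (if a ∈ S.ls then 1 else 0 : ℝ) + du y a + 1 := fun a => by
    rw [Rf65.cost, if_neg (Option.not_mem_none a)]
    split_ifs <;> push_cast <;> ring
  have h9 := Finset.sum_nonneg fun l (_ : l ∈ fi S.M.sys (S.ls \ LL c) π) => (Nat.cast_nonneg (drp y l) : (0 : ℝ) ≤ _)
  simp only [Wt, Dl, rr, h6, h8, Scene.nm, Scene.nh, ncard_fi, Tf, Finset.sum_add_distrib,
    Finset.sum_sub_distrib, ← Finset.mul_sum, Finset.sum_const, nsmul_eq_mul, mul_one] at h1 h5 h7 ⊢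
  constructor <;> linarith

omit hc in
/-- the total weight -/
theorem tot (hS : SumStmt Lm) (hk : k₁ = J.k) {β sg l2 : Reg S.A → ℝ}
    (hN : ∀ π, S.M.sys.Piece ↑(c0 c) π → S.Nb i (S.M.sys.U π) (β π) (sg π) (l2 π)) :
    ∑ π ∈ pcs S.M.sys (c0 c), Wt (β π) (sg π) (l2 π) (S.nm σ π) (S.nh π) (Tf y f π) ≤
      n₀ - 2 * j + 4 + σ.card + 2 * S.nd (c0 c) -
        6 * (lo + g - ∑ π ∈ pcs S.M.sys (c0 c), ∑ l ∈ fi S.M.sys S.ls π, (drp y l : ℝ)) := by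
  obtain ⟨b, s, l, hb⟩ := exists_nb_univ (S := S) i
  obtain ⟨h1, h2⟩ := hS S i (c0 c) β sg l2 b s l (lg p).cell₀ (fun _ k => (mem_c0.1 k).2) hb hN
  rw [show {π | S.M.sys.Piece ↑(c0 c) π} = ↑(pcs S.M.sys (c0 c)) from Set.ext fun _ => mem_pcs.symm,
    finsum_mem_coe_finset] at h1 h2
  have h3 := p.lev
  rw [hk, H.gx.k, kz, d0_eq hb, show Rl none c = rc c '' ↑(pcs S.M.sys (c0 c)) from Set.ext fun _ => by
      simp only [mem_Rl, (lg p).re_iff, mem_image, Finset.mem_coe, mem_pcs],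
    (lg p).finsum_rp fun _ => mem_pcs.1, show {a ∈ cylW c | a ∉ (none : Option S.A)} =
      ↑(iN S.M.sys (pcs S.M.sys (c0 c)) (LL c)) from Set.ext fun _ => by simp [(lg p).iN_L, mem_LL],
    finsum_mem_coe_finset, ← sum_iN (lg p).cell₀ fun _ => mem_pcs.1] at h3
  have h4 : ((iN S.M.sys (pcs S.M.sys (c0 c)) σ).card : ℝ) + (c0 c).card ≤ σ.card := by
    rw [← Nat.cast_add, ← Finset.card_union_of_disjoint (Finset.disjoint_left.2 fun a k k' =>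
      let ⟨_, _, h, i⟩ := mem_iN.1 k; (mem_pcs.1 h).not_inn a k' i)]
    exact Nat.cast_le.2 (Finset.card_le_card (Finset.union_subset (Finset.filter_subset _ _)
      fun _ k => H.sub (H.c_sub p.cell p.inf (mem_c0.1 k).1)))
  have h5 : (S.ls.card : ℝ) ≤ (iN S.M.sys (pcs S.M.sys (c0 c)) S.ls).card + S.nd (c0 c) := by
    rw [← Nat.cast_add, Nat.cast_le, ← ncard_coe_finset, ← ncard_coe_finset]
    refine (ncard_le_ncard fun l hl => or_iff_not_imp_right.2 fun k => ?_).trans (ncard_union_le _ _)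
    obtain ⟨π, h, i⟩ := (Sys.existsUnique_inn (lg p).cell₀ (fun m => H.gx.sc.lsp l hl (mem_c0.1 m).2)
      fun a m => Sys.Cmp.symm (by_contra fun m' => k ⟨hl, a, m, m'⟩)).exists
    exact mem_iN.2 ⟨hl, π, mem_pcs.2 h, i⟩
  rw [← card_iN (lg p).cell₀ fun _ => mem_pcs.1] at h4 h5
  simp only [Wt, Tf, kf, fl, Scene.nm, Scene.nh, ncard_fi, Finset.sum_add_distrib, Finset.sum_sub_distrib,
    ← Finset.mul_sum, ← Finset.sum_div, Finset.sum_const, nsmul_eq_mul, card_pcs (lg p).cell₀] at h2 h3 ⊢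
  push_cast
  linarith

theorem drop : ∑ π ∈ pcs S.M.sys (c0 c), ∑ l ∈ fi S.M.sys S.ls π, (drp y l : ℝ) ≤ lo := by
  rw [sum_iN (lg p).cell₀ fun _ => mem_pcs.1]
  refine (sum_le_ncard fun l hl => ?_).trans (Nat.cast_le.2 p.drop)
  obtain ⟨k, π, h, e⟩ := mem_iN.1 hl
  unfold drp
  split_ifs with m
  swap
  · exact .inl (by simp)
  refine .inr ⟨by simp, ⟨l, k⟩, ⟨?_, m.2, by simp [Ou]⟩, rfl⟩
  rw [Job.unc, H.gx.nb]
  exact H.gx.sc.unc_of _ fun a ha => H.cmp p hc k (mem_pcs.1 h) e ha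

/-- **regions without spinor** -/
theorem w_le (d0 : 0 < δ) (h : S.M.sys.Piece ↑(c0 c) π) (R : RB S i σ (c0 c) π K₀ ε T w β sg l2)
    (h0 : rc c π ∉ F) : w ≤ Wt β sg l2 (S.nm σ π) (S.nh π) (Tf y f π) := by
  obtain ⟨h1, -, m, h3⟩ := H.add_reg p h R.nb
  have h4 : Tf y f π = kf y f π +
      (∑ a ∈ fl c π, f.e a + ∑ l ∈ fi S.M.sys S.ls π, drp y l : ℕ) := by rw [Tf]; push_cast; ring
  generalize (∑ a ∈ fl c π, f.e a + ∑ l ∈ fi S.M.sys S.ls π, drp y l : ℕ) = m' at h4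
  have h5 : y.kap (D.W.pc c (rc c π)) ≤ kf y f π :=
    le_add_of_nonneg_right (Finset.sum_nonneg fun l hl => (fil p hl).pos)
  have h6 : (0 : ℝ) ≤ m' := Nat.cast_nonneg _
  have mono : ∀ k ≤ Tf y f π, Wt β sg l2 (S.nm σ π) (S.nh π) k ≤ Wt β sg l2 (S.nm σ π) (S.nh π) (Tf y f π) :=
    fun k hk => by simp only [Wt]; linarith
  rcases p.tri _ (mem_Rl.2 ((lg p).rp_spec h).1) h0 with ⟨t, k, k'⟩ | k | ⟨k, k'⟩
  · obtain ⟨z, g1, g2⟩ := exists_fam p h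
    have q := H.gx.par τ o H.cm _ p.cell
    have fz := Finset.disjoint_left.1 (H.gx.sc.cell i σ H.mem).2
    have := R.ab D Wi r n J c δ y.s z (fun a => y.β a true) H.gx.ok d0
      (fun a => mem_c0.trans (and_congr_right fun k =>
        (or_iff_left (fz (H.sub (H.c_sub p.cell p.inf k)))).symm))
      ⟨fun a k => if k' : a ∈ τ then q.1 a k' else by rw [q.2.2 a k' (fz k)]; simp,
        q.2.1, fun a k => q.2.2 a fun k' => k (H.sub k')⟩ p.inf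
      (fun a k => H.gx.ok.mem (.inl a) a (by
        rw [H.gx.hd]; exact if_pos (H.hd (H.c_sub p.cell p.inf k.1))) k.2) h fun ρ m =>
      let ⟨⟨a1, a2, a3⟩, a4, a5, a6⟩ := g1 (fun ρ x => x.TA ρ ∧ EA ε x ρ ∧
        ∀ a ∈ c.1, a ∈ S.M.sys.inn π → S.M.sys.U ρ ⊆ (S.M.sys.w a).sd false → Un x ρ)
        ⟨t, k, fun a ha k k' =>
          have m := (((lg p).mem a).1 ha).resolve_left fun m => h.not_inn a m k
          Bool.noConfusion ((lg p).eq_of ((lg p).piece_rp h) m m k' (((lg p).rp_end h m).2 ⟨k, rfl⟩)).2⟩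
        (fun l hl => ⟨(fil p hl).ta, (fil p hl).ea, fun _ _ _ _ => (fil p hl).un⟩) ρ m
      ⟨a1, a2, a4, a5, fun a ha b e _ => a3 a ha b e, a6⟩
    rw [g2 fun x ρ => x.kap (D.W.pc c ρ)] at this
    exact (this ⟨k'.trans h5, m, h3⟩).trans (mono _ (h4 ▸ le_add_of_nonneg_right h6))
  · exact R.hi.trans (mono _ (by linarith))
  have pos : 0 ≤ kf y f π := by
    obtain ⟨b, hb⟩ := nb_int R.nb
    obtain ⟨u, hu⟩ : ∃ u : ℤ, (u : ℝ) = 8 * kf y f π := ⟨ia δ y (rc c π) +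
      ∑ l ∈ fl c π, ia δ (f.z l) (f.ι l) + 3 * b -
        ∑ l ∈ fl c π, ((dw y l : ℤ) - dh (J.xs l).D (y.β l true)), by push_cast; linarith⟩
    have : (0 : ℝ) ≤ u := by exact_mod_cast (show (-1 : ℤ) < u by
      rw [← Int.cast_lt (R := ℝ)]; push_cast; linarith : (0 : ℤ) ≤ u)
    linarith
  refine R.ir _ ⟨by linarith, m + m', by push_cast; linarith⟩ (le_trans ?_ (H.led p h R.nb).2)
  have k1 := H.xs_le p hc (G := {π}) (P' := ∅) (by simpa using h)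
  simp only [Finset.coe_singleton, image_singleton, Finset.sum_singleton, ix, finsum_mem_singleton,
    finsum_mem_empty, add_zero] at k1
  have k2 : (0 : ℝ) ≤ _ := Int.cast_nonneg_iff.2 k'
  have k3 : (sf o : ℝ) ≤ 1 := by cases o <;> simp [sf]
  linarith

end Ck

/-- **the core** -/
theorem kcAt (H : Ck c J X a₀ j n₀ T δ τ σ o) (hc : ∀ a ∈ X, ∀ l ∈ S.ls, S.M.sys.Cmp a l)
    (hS : SumStmt Lm) (hU : UN S K₀ ε T) (hC : Br55.NC S i σ) (d0 : 0 < δ)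
    (num : n₀ + σ.card + sf o ≤ 1) : KcAt J c δ ε K₀ (shX S X) (cel τ o) none j J.k := by
  intro y F f lo g p
  have lg := Ck.lg p
  obtain ⟨w, β, sg, l2, R, hn⟩ := hU i σ _ (hC _ (fun _ k => H.sub (H.c_sub p.cell p.inf (mem_c0.1 k).1))
    fun _ k => (mem_c0.1 k).2)
  have t1 := H.tot p hS rfl fun π h => (R π h).nb
  have t2 := H.drop p hc
  have t3 : (n₀ : ℝ) + σ.card + sf o ≤ 1 := by exact_mod_cast num
  obtain ⟨G, eG⟩ : ∃ G, G = (pcs S.M.sys (c0 c)).filter fun π => rc c π ∈ F := ⟨_, rfl⟩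
  obtain ⟨N, eN⟩ : ∃ G, G = (pcs S.M.sys (c0 c)).filter fun π => rc c π ∉ F := ⟨_, rfl⟩
  have mG : ∀ π, π ∈ G ↔ S.M.sys.Piece ↑(c0 c) π ∧ rc c π ∈ F := fun π => by
    rw [eG, Finset.mem_filter, mem_pcs]
  have mN : ∀ π, π ∈ N ↔ S.M.sys.Piece ↑(c0 c) π ∧ rc c π ∉ F := fun π => by
    rw [eN, Finset.mem_filter, mem_pcs]
  have pG := fun π k => ((mG π).1 k).1
  have s0 : ∀ φ : Reg S.A → ℝ, ∑ π ∈ pcs S.M.sys (c0 c), φ π = ∑ π ∈ G, φ π + ∑ π ∈ N, φ π := fun φ => by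
    rw [eG, eN, Finset.sum_filter_add_sum_filter_not]
  have s2 : (G.card : ℝ) + N.card = (c0 c).card + 1 := by
    simpa [card_pcs lg.cell₀, eq_comm] using s0 fun _ => 1
  have s3 := Finset.sum_le_sum fun π (k : π ∈ N) =>
    H.w_le p hc d0 ((mN π).1 k).1 (R π ((mN π).1 k).1) ((mN π).1 k).2
  obtain rfl : F = rc c '' ↑G := Set.ext fun ρ => ⟨fun k =>
    let ⟨π, h, e⟩ := lg.re_iff.1 (Ck.mem_Rl.1 (p.sub k)); ⟨π, (mG π).2 ⟨h, by rwa [rc, e]⟩, e⟩,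
    fun ⟨π, k, e⟩ => e ▸ ((mG π).1 k).2⟩
  have s4 := H.xs_le p hc (P' := rc c '' ↑G) pG
  have s5 := Finset.sum_congr rfl fun π k => (H.led p (pG π k) (R π (pG π k)).nb).1
  have s6 := Finset.sum_nonneg fun π (_ : π ∈ G) => Finset.sum_nonneg
    fun l (_ : l ∈ fi S.M.sys (S.ls \ LL c) π) => (Nat.cast_nonneg (drp y l) : (0 : ℝ) ≤ _)
  rw [show {a ∈ cylW c | ∃ ρ ∈ rc c '' ↑G, ρ a = some true} = ↑(iN S.M.sys G (LL c)) from
    Set.ext fun a => by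
      simp only [mem_ofPred_eq, Finset.mem_coe, mem_iN, mem_LL, exists_mem_image]
      exact and_congr_right fun ha => exists_congr fun π => and_congr_right fun k =>
        (lg.rp_end (pG π k) (mem_LL.2 ha)).trans (and_iff_left rfl),
    finsum_mem_coe_finset, ← sum_iN lg.cell₀ pG]
  rw [s0] at t1
  simp only [ix, lg.finsum_rp pG, fl, Finset.sum_add_distrib, Finset.sum_sub_distrib, ← Finset.mul_sum,
    Finset.sum_const, nsmul_eq_mul] at s4 s5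
  push_cast at s4 ⊢
  refine or_iff_not_imp_left.2 fun k => ?_
  obtain ⟨n1, n2⟩ : ¬(c0 c).Nonempty ∧ ¬N.Nonempty := not_or.1 fun m => k (by
    linarith [hn N (fun π k => ((mN π).1 k).1) m])
  rw [Finset.not_nonempty_iff_eq_empty] at n1 n2
  refine ⟨fun a k m => by simpa [n1] using mem_c0.2 ⟨k, m⟩, fun ρ k => ?_, ?_⟩
  · obtain ⟨π, h, rfl⟩ := lg.re_iff.1 (Ck.mem_Rl.1 k)
    exact by_contra fun m => by simpa [n2] using (mN π).2 ⟨h, m⟩
  have s7 := Finset.sum_congr rfl fun π (_ : π ∈ pcs S.M.sys (c0 c)) =>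
    sum_ls (π := π) (LL c) (fun a => drp y a) fun a k => by simp [drp, k]
  rw [Finset.sum_add_distrib, sum_iN lg.cell₀ (B := LL c) fun _ => mem_pcs.1, lg.iN_L,
    s0 fun π => ∑ a ∈ fi S.M.sys (S.ls \ LL c) π, _] at s7
  rw [show cylW c = ↑(LL c) from Set.ext fun _ => mem_LL.symm, finsum_mem_coe_finset]
  rw [show S.nd (c0 c) = 0 by simp [Scene.nd, n1]] at t1
  simp only [n1, n2, Finset.sum_empty, Finset.card_empty, Nat.cast_zero] at t1 s2 s7 t2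
  linarith

theorem piece_one : S.M.sys.Piece {x} ρ ↔ ρ = hp x true ∨ ρ = hp x false := by
  have k : ∀ b, S.M.sys.Piece {x} (hp x b) := fun b =>
    have e : Sys.bd (hp x b) ⊆ {x} := fun _ k => by_contra fun i => k (hp_none.2 i)
    ⟨⟨(pairwise_singleton _ _).mono e, fun a b' k => by
      obtain ⟨rfl, rfl⟩ := hp_eq.1 k
      exact inter_subset_right.trans U_hp.ge⟩, e, fun a m i => hp_none.1 i.1 m⟩
  refine ⟨fun h => ?_, fun h => h.elim (· ▸ k _) (· ▸ k _)⟩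
  obtain ⟨p, hp⟩ := h.toIsReg.nonempty
  obtain ⟨_ | _, e⟩ := h.side (pairwise_singleton _ _) rfl
  exacts [.inr (h.unique (pairwise_singleton _ _) (k _) hp (U_hp.ge (e hp))),
    .inl (h.unique (pairwise_singleton _ _) (k _) hp (U_hp.ge (e hp)))]

/-- **the number of the whole face** -/
theorem fnW (H : Ck c J X a₀ j n₀ T δ τ σ o) (an : AnH J c δ (shX S X) (cel τ o)) :
    FnW J c δ (shX S X) (cel τ o) n₀ := by
  rintro q y x hy ⟨-, hc, hp', ht, -⟩ un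
  have mc : ∀ a, a ∈ c.1 ↔ a = x := fun a => by rw [hc]; rfl
  have hx : x ∈ cylW c := ⟨(mc x).2 rfl, hp'⟩
  have cy : cylW c = {x} := Set.ext fun a => ⟨fun k => (mc a).1 k.1, fun k => k ▸ hx⟩
  have pc : Rf65.Pc c = {hp x true, hp x false} := Set.ext fun _ => by
    rw [Rf65.Pc, hc]; exact piece_one
  have ne : hp x true ≠ hp x false := fun k => by simpa [hp_self] using congrFun k x
  obtain ⟨b1, b2⟩ := brk0 (hy.brk x hx) (ht.2 x hx)
  have en : ∀ b, ((⟨x, hx⟩, b) : Ed c) ∈ EdP c {hp x true, hp x false} := fun b =>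
    ⟨hp x b, by cases b <;> simp, hp_self⟩
  have bs : Bs (J.xs x).D (y.β x true) := (go_an an hy pc.ge).bs _ (en true)
  obtain ⟨β, sg, l2, hb⟩ := exists_nb_univ (S := S) i
  have k := H.add _ H.cm y.s hy.ov S.M.c0 (top S.A) (Set.ext fun a => ⟨False.elim, fun k =>
    hp' ((mc a).1 k.1 ▸ k.2)⟩) S.M.sys.piece_top β sg l2 (S.M.sys.U_top ▸ hb) (fun _ => y)
    (fun a => y.β a true) fun ρ k => ⟨rfl, go_an an hy (singleton_subset_iff.2 k.1), fun a ha b _ => by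
      obtain rfl := (mc a).1 ha.1
      cases b
      exacts [⟨bs, by rw [b1]; exact eqv_refl bs⟩, ⟨bs, eqv_refl bs⟩]⟩
  have a5 := hy.lev
  rw [kap_sum hy.int, pc, H.gx.k, kz, d0_eq hb, ht.1, cy, Finset.sum_eq_zero fun a _ => by
    by_cases m : a = x <;> simp [m, b2]] at a5
  simp only [show {ρ | S.In c (top S.A) ρ} = {hp x true, hp x false} from
    pc ▸ Set.ext fun _ => by simp [Scene.In, Rf65.Pc], cy, Sys.inn_top, inter_univ,
    finsum_mem_singleton, finsum_mem_pair ne] at k a5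
  have m := H.c_sub hy.cell hy.inf hx.1
  have v := H.card_lv (P := {hp x true, hp x false}) (τ.erase x) fun a => by
    rw [Finset.mem_erase, mc, ← pc]
    exact ⟨fun k => ⟨k.2, k.1, (Sys.existsUnique_inn c.2 (fun e => k.1 ((mc a).1 e)) fun a' e =>
      (mc a').1 e ▸ (H.gx.sc.cell i σ H.mem).1 (.inl (H.sub k.2)) (.inl (H.sub m)) k.1).exists⟩,
      fun k => ⟨k.2.1, k.1⟩⟩
  have u1 : (J.cs {hp x true, hp x false} univ).ncard = S.ls.card := by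
    rw [eq_univ_of_forall (s := J.cs _ univ) fun l => ⟨trivial, fun p k => ?_⟩, ncard_univ]
    · simp
    obtain ⟨ρ, h1, h2⟩ := Sys.exists_piece c.2 (disjoint_left.1 (un.ge (mem_univ l) : l ∈ J.unc c) k)
    exact mem_biUnion (pc.le h1) h2
  have u2 := card_UU_eq (P := {hp x true, hp x false}) (Z := cz y) (j0 := jz y)
    (if Rf65.Cn (J.xs x).D (y.β x true) then ∅ else {x}) (fun a => ⟨fun k => by
      split_ifs at k with e
      exacts [by simp at k, ⟨_, en true, e, (Finset.mem_singleton.1 k).symm⟩], by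
      rintro ⟨⟨⟨a, ha⟩, b⟩, -, e, rfl⟩
      obtain rfl := (mc a).1 ha.1
      rw [if_neg fun k => e (by cases b; exacts [show Rf65.Cn _ (y.β a false) by rwa [b1], k])]
      exact Finset.mem_singleton_self _⟩) fun i _ i' _ e => by
      have : i'.1.1 ∈ jz y := ⟨i'.1.2, ht.2 _ i'.1.2⟩
      simp only [ky, e, this, if_true]
  have u3 := Finset.card_erase_add_one m
  have u4 := H.gx.r
  rw [← Int.cast_inj (α := ℝ), dmy, dm, min_eq_right (Nat.one_le_iff_ne_zero.2 an.r0), dim_cel, du]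
  simp only [Job.prt, ix, finsum_mem_pair ne, u1, u2, v, u4, ← u3]
  split_ifs <;> push_cast at a5 ⊢ <;> simp only [Finset.card_empty, Finset.card_singleton] <;> push_cast <;>
    linarith [k.1, k.2.1]

/-- **KC** -/
theorem kc (hS : SumStmt Lm) (hA : AbwStmt Lm) : KcStmt Lm := fun S => by
  obtain ⟨K₀, ε, hε, h⟩ := exists_un S hA
  refine ⟨K₀, ε, hε, h.mono fun T hU j n₀ D i Wi r n J X a₀ c δ σ' g a0 hc hm d0 ad => ?_⟩
  obtain ⟨τ, o, σ, rfl, h1, h2, h3, h4, h5⟩ := g.cell _ hm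
  have H : Ck c J X a₀ j n₀ T δ τ σ o := ⟨g, a0, hm, ad, h1, h2, h4⟩
  exact ⟨kcAt H hc hS hU h3 d0 h5, fnW H⟩

end Crest.Agent.X212.Kl48
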