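import Crest.Agent.X212.Kl48.Reg

/-!
# Row 212, KC (helper48): regions bounded by pinch walls, cut along unnested walls
-/

set_option autoImplicit false
set_option linter.unusedSectionVars false
noncomputable section
open Set Function Classical

namespace Crest.Agent.X212.Kl48
open M Sid48

variable {X A : Type} [TopologicalSpace X] [PreconnectedSpace X] [Nonempty X] [Fintype A]
  [DecidableEq A] {S : Sys X A} {c : Set A} {c₀ L : Finset A} {π π' ρ ρ' : Reg A} {a l : A} {b : Bool}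
  {F : Finset (Reg A)} {ι : A → Reg A}

variable (S c L) in
/-- the real pieces -/
def Re (ρ : Reg A) : Prop := S.Piece c ρ ∧ ∀ a ∈ L, ρ a ≠ some false

variable (S c L) in
/-- the real piece of a region -/
def rp (π : Reg A) : Reg A := epsilon fun ρ => Re S c L ρ ∧ S.U ρ ⊆ S.U π

variable (S c c₀ L) in
/-- `c` consists of `c₀` and the walls `L`, which lie outside each other -/
structure Lg : Prop where
  cell : S.Cell c
  mem : ∀ a, a ∈ c ↔ a ∈ c₀ ∨ a ∈ L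
  dj : ∀ a ∈ c₀, a ∉ L
  out : ∀ l ∈ L, ∀ a ∈ L, a ≠ l → (S.w a).band ⊆ (S.w l).sd true

namespace Lg
variable (H : Lg S c c₀ L)
include H

theorem sub : ↑c₀ ⊆ c := fun a k => (H.mem a).2 (.inl k)

theorem subL (hl : l ∈ L) : l ∈ c := (H.mem l).2 (.inr hl)

theorem cell₀ : S.Cell ↑c₀ := H.cell.mono H.sub

theorem sub_of (h : S.Piece ↑c₀ π) (k : S.Piece c ρ) {x : X} (i : x ∈ S.U ρ) (j : x ∈ S.U π) :
    S.Sub ρ π :=
  h.sub k.toIsReg (H.cell.mono (union_subset H.sub k.bd_subset)) (fun a m => k.not_inn a (H.sub m)) j i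

theorem exists_reg (k : S.Piece c ρ) : ∃ π, S.Piece ↑c₀ π ∧ S.U ρ ⊆ S.U π := by
  obtain ⟨x, hx⟩ := k.toIsReg.nonempty
  obtain ⟨π, h, i⟩ := Sys.exists_piece H.cell₀ (x := x) fun j =>
    disjoint_left.1 (k.disjoint_cores H.cell) hx (biUnion_subset_biUnion_left H.sub j)
  exact ⟨π, h, (H.sub_of h k hx i).subset⟩

theorem inn_sub (h : S.Piece ↑c₀ π) (k : S.Piece c ρ) (i : S.U ρ ⊆ S.U π) : S.inn ρ ⊆ S.inn π :=
  let ⟨_, hx⟩ := k.toIsReg.nonempty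
  (H.sub_of h k hx (i hx)).inn_sub

theorem exists_inn (hl : l ∈ L) : ∃ π, S.Piece ↑c₀ π ∧ l ∈ S.inn π :=
  (Sys.existsUnique_inn H.cell₀ (fun k => H.dj l k hl) fun a k => H.cell (H.subL hl)
    (H.sub k) fun e => H.dj a k (e ▸ hl)).exists

theorem adj_iff (h : S.Piece ↑c₀ π) (k : S.Piece c ρ) (hl : l ∈ L) (e : ρ l = some b) :
    S.U ρ ⊆ S.U π ↔ l ∈ S.inn π := by
  obtain ⟨x, hx⟩ := (S.w l).ne b
  refine ⟨fun i => ?_, fun i => (H.sub_of h k (k.adj l b e hx) (i.2.1 hx.1)).subset⟩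
  obtain ⟨π', h', i'⟩ := H.exists_inn hl
  rwa [h.unique H.cell₀ h' (i (k.adj l b e hx)) (i'.2.1 hx.1)]

/-- a piece has at most the one wall of `L` around it -/
theorem eq_of (k : S.Piece c ρ) (hl : l ∈ L) (ha : a ∈ L) (i : S.U ρ ⊆ (S.w l).sd false)
    (e : ρ a = some b) : a = l ∧ b = false := by
  obtain ⟨x, hx⟩ := (S.w a).ne b
  have j := i (k.adj a b e hx)
  obtain rfl : a = l := by_contra fun m => Bool.noConfusion ((S.w l).sd_inj j (H.out l hl a ha m hx.1))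
  exact ⟨rfl, (S.w a).sd_inj hx.2 j⟩

theorem re_of (k : S.Piece c ρ) (hl : l ∈ L) (e : ρ l = some true) : Re S c L ρ :=
  ⟨k, fun a ha i => Bool.noConfusion (H.eq_of k ha hl (fun _ j => j a _ i) e).2⟩

theorem exists_adj (hl : l ∈ L) : ∃ ρ, Re S c L ρ ∧ ρ l = some true :=
  let ⟨ρ, k, e⟩ := (Sys.existsUnique_adj H.cell (H.subL hl) true).exists
  ⟨ρ, H.re_of k hl e, e⟩

theorem re_uniq (h : S.Piece ↑c₀ π) (k : Re S c L ρ) (k' : Re S c L ρ') (i : S.U ρ ⊆ S.U π)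
    (i' : S.U ρ' ⊆ S.U π) : ρ = ρ' := by
  have key : ∀ {ρ ρ'}, Re S c L ρ → Re S c L ρ' → S.U ρ ⊆ S.U π → S.U ρ' ⊆ S.U π → ρ ≠ ρ' →
      ∃ a ∈ L, (∃ b, ρ' a = some b) ∧ S.U ρ ⊆ (S.w a).sd false := fun {ρ ρ'} k k' i i' e => by
    obtain ⟨x, hx⟩ := k.1.toIsReg.nonempty
    obtain ⟨x', hx'⟩ := k'.1.toIsReg.nonempty
    have : x ∉ S.U ρ' := fun j => e (k.1.unique H.cell k'.1 hx j)
    simp only [Sys.U, mem_ofPred_eq, not_forall] at this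
    obtain ⟨a, b, j, m⟩ := this
    have ha := k'.1.bd_subset (Sys.mem_bd_of j)
    rcases (H.mem a).1 ha with p | p
    · obtain ⟨b', q⟩ := h.side H.cell₀ p
      exact (m ((S.w a).sd_inj (q (i' hx')) (hx' a b j) ▸ q (i hx))).elim
    obtain ⟨_ | _, q⟩ := k.1.side H.cell ha
    · exact ⟨a, p, ⟨b, j⟩, q⟩
    cases b
    exacts [(k'.2 a p j).elim, (m (q hx)).elim]
  by_contra e
  obtain ⟨a, ha, -, j⟩ := key k k' i i' e
  obtain ⟨a', ha', ⟨b, m⟩, -⟩ := key k' k i' i (Ne.symm e)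
  exact k.2 a' ha' ((H.eq_of k.1 ha ha' j m).2 ▸ m)

theorem rp_spec (h : S.Piece ↑c₀ π) : Re S c L (rp S c L π) ∧ S.U (rp S c L π) ⊆ S.U π := by
  refine epsilon_spec (p := fun ρ => Re S c L ρ ∧ S.U ρ ⊆ S.U π) ?_
  by_cases k : ∃ l ∈ L, l ∈ S.inn π
  · obtain ⟨l, hl, i⟩ := k
    obtain ⟨ρ, k, e⟩ := H.exists_adj hl
    exact ⟨ρ, k, (H.adj_iff h k.1 hl e).2 i⟩
  · exact ⟨π, ⟨⟨h.toIsReg, h.bd_subset.trans H.sub, fun a m i => ((H.mem a).1 m).elim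
      (fun j => h.not_inn a j i) fun j => k ⟨a, j, i⟩⟩,
      fun a m e => H.dj a (h.bd_subset (Sys.mem_bd_of e)) m⟩, subset_rfl⟩

theorem piece_rp (h : S.Piece ↑c₀ π) : S.Piece c (rp S c L π) := (H.rp_spec h).1.1

theorem eq_rp (h : S.Piece ↑c₀ π) (k : Re S c L ρ) (i : S.U ρ ⊆ S.U π) : ρ = rp S c L π :=
  H.re_uniq h k (H.rp_spec h).1 i (H.rp_spec h).2

theorem re_iff : Re S c L ρ ↔ ∃ π, S.Piece ↑c₀ π ∧ rp S c L π = ρ :=
  ⟨fun k => let ⟨π, h, i⟩ := H.exists_reg k.1; ⟨π, h, (H.eq_rp h k i).symm⟩,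
    fun ⟨_, h, e⟩ => e ▸ (H.rp_spec h).1⟩

theorem rp_end (h : S.Piece ↑c₀ π) (hl : l ∈ L) : rp S c L π l = some b ↔ l ∈ S.inn π ∧ b = true := by
  refine ⟨fun e => ⟨(H.adj_iff h (H.piece_rp h) hl e).1 (H.rp_spec h).2, ?_⟩, ?_⟩
  · cases b
    exacts [((H.rp_spec h).1.2 l hl e).elim, rfl]
  · rintro ⟨i, rfl⟩
    obtain ⟨ρ, k, e⟩ := H.exists_adj hl
    exact H.eq_rp h k ((H.adj_iff h k.1 hl e).2 i) ▸ e

theorem rp_inj (h : S.Piece ↑c₀ π) (h' : S.Piece ↑c₀ π') (e : rp S c L π = rp S c L π') : π = π' :=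
  let ⟨_, hx⟩ := (H.piece_rp h).toIsReg.nonempty
  h.unique H.cell₀ h' ((H.rp_spec h).2 hx) ((H.rp_spec h').2 (e ▸ hx))

theorem finsum_rp {R : Type} [AddCommMonoid R] (hF : ∀ π ∈ F, S.Piece ↑c₀ π) (f : Reg A → R) :
    ∑ᶠ ρ ∈ rp S c L '' ↑F, f ρ = ∑ π ∈ F, f (rp S c L π) := by
  rw [finsum_mem_image fun π k π' k' => H.rp_inj (hF π k) (hF π' k'), finsum_mem_coe_finset]

theorem iN_L : iN S (pcs S c₀) L = L := Finset.filter_true_of_mem fun _ hl =>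
  let ⟨π, h, i⟩ := H.exists_inn hl
  ⟨π, mem_pcs.2 h, i⟩

variable (hι : ∀ l ∈ L, S.Piece c (ι l) ∧ ι l l = some false)
include hι

theorem io_end (hl : l ∈ L) (ha : a ∈ L) (e : ι l a = some b) : a = l ∧ b = false :=
  H.eq_of (hι l hl).1 hl ha (fun _ j => j l _ (hι l hl).2) e

/-- the pieces inside a region -/
theorem in_iff (h : S.Piece ↑c₀ π) :
    S.Piece c ρ ∧ S.U ρ ⊆ S.U π ↔ ρ = rp S c L π ∨ ∃ l ∈ fi S L π, ι l = ρ := by
  refine ⟨fun ⟨k, i⟩ => or_iff_not_imp_right.2 fun j => H.eq_rp h ⟨k, fun l hl e => j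
    ⟨l, mem_fi.2 ⟨hl, (H.adj_iff h k hl e).1 i⟩,
      (Sys.existsUnique_adj H.cell (H.subL hl) false).unique (hι l hl) ⟨k, e⟩⟩⟩ i, ?_⟩
  rintro (rfl | ⟨l, hl, rfl⟩)
  · exact ⟨H.piece_rp h, (H.rp_spec h).2⟩
  · obtain ⟨hl, i⟩ := mem_fi.1 hl
    exact ⟨(hι l hl).1, (H.adj_iff h (hι l hl).1 hl (hι l hl).2).2 i⟩

theorem inn_rp (h : S.Piece ↑c₀ π) (ha : a ∉ c) (hc : ∀ a' ∈ c, S.Cmp a a') (i : a ∈ S.inn π)
    (k : ∀ l ∈ L, a ∉ S.inn (ι l)) : a ∈ S.inn (rp S c L π) := by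
  obtain ⟨ρ, m, j⟩ := (Sys.existsUnique_inn H.cell ha hc).exists
  obtain ⟨x, hx⟩ := (S.w a).ne true
  obtain rfl | ⟨l, hl, rfl⟩ := (H.in_iff hι h).1 ⟨m, (H.sub_of h m (j.2.1 hx.1) (i.2.1 hx.1)).subset⟩
  exacts [j, (k l (mem_fi.1 hl).1 j).elim]

/-- one object on the real piece, one inside each wall -/
theorem exists_ob {α : Type} (h : S.Piece ↑c₀ π) (y : α) (z : A → α) : ∃ g : Reg A → α,
    (∀ Q : Reg A → α → Prop, Q (rp S c L π) y → (∀ l ∈ fi S L π, Q (ι l) (z l)) →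
      ∀ ρ, S.Piece c ρ ∧ S.U ρ ⊆ S.U π → Q ρ (g ρ)) ∧
    ∀ f : α → Reg A → ℝ, ∑ᶠ ρ ∈ {ρ | S.Piece c ρ ∧ S.U ρ ⊆ S.U π}, f (g ρ) ρ =
      f y (rp S c L π) + ∑ l ∈ fi S L π, f (z l) (ι l) := by
  have inj : ∀ l ∈ L, ∀ l' ∈ L, ι l = ι l' → l = l' := fun l hl l' hl' e =>
    (H.io_end hι hl' hl (e ▸ (hι l hl).2)).1
  have ne : ∀ l ∈ L, ι l ≠ rp S c L π := fun l hl e => (H.rp_spec h).1.2 l hl (e ▸ (hι l hl).2)
  let g : Reg A → α := fun ρ => if k : ∃ l ∈ L, ι l = ρ then z k.choose else y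
  have e0 : g (rp S c L π) = y := dif_neg fun ⟨l, hl, e⟩ => ne l hl e
  have e1 : ∀ l ∈ fi S L π, g (ι l) = z l := fun l k =>
    have m : ∃ l' ∈ L, ι l' = ι l := ⟨l, (mem_fi.1 k).1, rfl⟩
    (dif_pos m).trans (congrArg z (inj _ m.choose_spec.1 _ (mem_fi.1 k).1 m.choose_spec.2))
  refine ⟨g, fun Q h0 h1 ρ k => ?_, fun f => ?_⟩
  · obtain rfl | ⟨l, hl, rfl⟩ := (H.in_iff hι h).1 k
    exacts [e0.symm ▸ h0, (e1 l hl).symm ▸ h1 l hl]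
  · rw [show {ρ | S.Piece c ρ ∧ S.U ρ ⊆ S.U π} = ↑(insert (rp S c L π) ((fi S L π).image ι)) from
      Set.ext fun ρ => by simp [H.in_iff hι h], finsum_mem_coe_finset, Finset.sum_insert fun k => by
        obtain ⟨l, hl, e⟩ := Finset.mem_image.1 k
        exact ne l (mem_fi.1 hl).1 e,
      Finset.sum_image fun l k l' k' => inj l (mem_fi.1 k).1 l' (mem_fi.1 k').1, e0]
    exact congrArg _ (Finset.sum_congr rfl fun l k => by rw [e1 l k])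

end Lg

end Crest.Agent.X212.Kl48
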